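import Vale.Agent.P307.R2.H514.TGap

set_option linter.unusedSectionVars false

universe u v w

open FirstOrder Cardinal Set

namespace Vale.Agent.P307.R2.H514

open Vale.Agent.P307 Vale.Agent.P307.H304 Vale.Agent.P307.R2.H287 Language.Structure
  Language.Substructure

variable {L : Language.{u, u}} {K : AEC L} {ℓ : Cardinal.{u}}
  {α κf : Cardinal.{u} → Cardinal.{u}}

/-- **Tameness** for families of standard submodels of `EM(I)` whose members are unions of convex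
classes of a small set of cuts. -/
theorem tame_family (hK : K.IsLS ℓ) (hunb : ∀ ν, ν < κf ν ∧ K.CategoricalIn (κf ν))
    (hst : Stab K ℓ α (thr κf)) (t : Tpl K ℓ) {σ θ : Cardinal.{u}} (hσ : ℓ ≤ σ)
    (hα : ∀ ρ < θ, α ρ < θ) (hκ : ∀ ρ < θ, thr κf ρ < θ) (hcof : θ.ord.cof = ℵ₀)
    (hHθ : tH σ < θ) {I : Type u} [LinearOrder I] (E : EM t I) (hI : θ ≤ #I)
    {F : Type u} (W : F → Set I) (s₀ : Set I) (hs₀ : #s₀ ≤ σ)
    (hmix : ∀ f, ∀ w ∈ W f, w ∉ s₀ → ∀ f', ∀ w' ∈ W f', w' ∉ s₀ →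
      (∀ a ∈ s₀, a < w ↔ a < w') → w' ∈ W f)
    {X : Type u} (hX : #X ≤ σ) (c c' : X → E.N)
    (h : ∀ (ι : Type u) (a : ι → E.N), #ι ≤ tH σ →
      (∀ i, ∃ f, a i ∈ closure (exLang L t.Λ) (E.c '' W f)) →
      EqS L (α (tH σ)) (Sum.elim a c) (Sum.elim a c'))
    {ν : Cardinal.{u}} (hℓν : ℓ ≤ ν) (hνθ : ν < θ) (hXν : #X ≤ ν)
    {ι : Type u} (hι : #ι ≤ ν) (a : ι → E.N)
    (ha : ∀ i, ∃ f, a i ∈ closure (exLang L t.Λ) (E.c '' W f)) :
    EqS L ν (Sum.elim a c) (Sum.elim a c') := by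
  classical
  have hℓ := hK.1
  have hσ0 : ℵ₀ ≤ σ := hℓ.trans hσ
  have hH0 : ℵ₀ ≤ tH σ := hσ0.trans (lt_tH' σ).le
  have hℓH : ℓ ≤ tH σ := hσ.trans (lt_tH' σ).le
  have hHα : tH σ ≤ α (tH σ) := (hst _ hℓH).1
  have hαθ : α (tH σ) < θ := hα _ hHθ
  have hℓθ : ℓ ≤ θ := hℓH.trans hHθ.le
  have hθ0 : ℵ₀ ≤ θ := hℓ.trans hℓθ
  have hσθ : σ ≤ θ := (lt_tH' σ).le.trans hHθ.le
  have hν0 : ℵ₀ ≤ ν := hℓ.trans hℓν
  have hιX : #(ι ⊕ X) ≤ ν := by
    rw [mk_sum, lift_id, lift_id]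
    exact add_le_of_le hν0 hι hXν
  -- supports
  obtain ⟨s, hs, hsX⟩ := exists_cover' hσ0 E.top (range c ∪ range c') ((mk_union_le _ _).trans
    (add_le_of_le hσ0 (mk_range_le.trans hX) (mk_range_le.trans hX)))
  choose tc htc using fun x => hsX (c x) (Or.inl ⟨x, rfl⟩)
  choose tc' htc' using fun x => hsX (c' x) (Or.inr ⟨x, rfl⟩)
  choose f hf using ha
  have hra : ∀ i, ∃ r : (exLang L t.Λ).Term (W (f i)), r.realize (fun q => E.c q.1) = a i :=
    fun i => (mem_closure_image_iff _ _ _).1 (hf i)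
  choose ra hra using hra
  let A₁ : Set I := ⋃ i, ((fun q : W (f i) => q.1) '' ((ra i).varFinset : Set (W (f i))))
  have hA₁ : #A₁ ≤ ν := mk_iUnion_le_of_le hν0 hι _ fun i =>
    mk_image_le.trans (((lt_aleph0_of_finite _).le).trans hν0)
  obtain ⟨B, hB⟩ := le_mk_iff_exists_set.1 hI
  let I₀ : Set I := B ∪ (s ∪ (s₀ ∪ A₁))
  have hI₀ : #I₀ = θ := by
    refine le_antisymm ((mk_union_le _ _).trans (add_le_of_le hθ0 hB.le ((mk_union_le _ _).trans
      (add_le_of_le hθ0 (hs.trans hσθ) ((mk_union_le _ _).trans (add_le_of_le hθ0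
      (hs₀.trans hσθ) (hA₁.trans hνθ.le))))))) ?_
    rw [← hB]
    exact mk_le_mk_of_subset subset_union_left
  have hsI : ∀ q ∈ s, q ∈ I₀ := fun q hq => Or.inr (Or.inl hq)
  have hs₀I : ∀ q ∈ s₀, q ∈ I₀ := fun q hq => Or.inr (Or.inr (Or.inl hq))
  have hAI : ∀ i, ∀ q : W (f i), q ∈ (ra i).varFinset → q.1 ∈ I₀ := fun i q hq =>
    Or.inr (Or.inr (Or.inr (mem_iUnion.2 ⟨i, q, hq, rfl⟩)))
  let Q : Type u := θ.ord.ToType
  have hQ : #Q = θ := mk_ord_toType _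
  have hQne : Nonempty Q := by
    rw [← mk_ne_zero_iff, hQ]
    exact (pos_of_gt hHθ).ne'
  obtain ⟨q₀, hq₀⟩ : ∃ q₀ : Q, ∀ q, q₀ ≤ q := by
    obtain ⟨q₀, -, h1⟩ := WellFounded.has_min (wellFounded_lt (α := Q)) univ
      ⟨hQne.some, trivial⟩
    exact ⟨q₀, fun q => not_lt.1 (h1 q trivial)⟩
  let I' : Type u := I₀ ⊕ₗ Q
  have hI' : #I' = θ := by
    change #(I₀ ⊕ Q) = θ
    rw [mk_sum, lift_id, lift_id, hI₀, hQ, add_eq_self hθ0]
  obtain ⟨E₀⟩ := exists_em t I₀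
  obtain ⟨E'⟩ := exists_em t I'
  obtain ⟨f₀, hf₀, hf₀'⟩ := EM.exists_map E₀ E (fun q : I₀ => q.1) fun q q' hq => hq
  let inl' : I₀ → I' := fun q => toLex (Sum.inl q)
  let inr' : Q → I' := fun q => toLex (Sum.inr q)
  have hinl : StrictMono inl' := fun q q' hq => Sum.Lex.inl_lt_inl_iff.2 hq
  have hinr : Function.Injective inr' := fun q q' hq => Sum.inr_injective (toLex.injective hq)
  obtain ⟨f', hf', hf''⟩ := EM.exists_map E₀ E' inl' hinl
  have hE₀ : #E₀.N = θ := E₀.card_eq hℓθ hI₀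
  -- the transfer
  have htr : ∀ (μ : Cardinal.{u}), ℓ ≤ μ → μ < θ → ∀ (ι : Type u), #ι ≤ μ → ∀ b b' : ι → E₀.N,
      (EqS L μ (fun i => f₀ (b i)) (fun i => f₀ (b' i)) ↔
        EqS L μ (fun i => f' (b i)) (fun i => f' (b' i))) := by
    intro μ hμ hμθ ι hι b b'
    have h1 : thr κf μ ≤ #E₀.N := by
      rw [hE₀]
      exact (hκ μ hμθ).le
    rw [eqS_emb_iff hK hunb hμ hι f₀ hf₀ h1, eqS_emb_iff hK hunb hμ hι f' hf' h1]
  let c₀ : X → E₀.N := fun x => (tc x).realize fun q : s => E₀.c ⟨q.1, hsI q.1 q.2⟩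
  let c₀' : X → E₀.N := fun x => (tc' x).realize fun q : s => E₀.c ⟨q.1, hsI q.1 q.2⟩
  have hrel : ∀ r : (exLang L t.Λ).Term s,
      f₀ (r.realize fun q : s => E₀.c ⟨q.1, hsI q.1 q.2⟩) = r.realize fun q : s => E.c q := by
    intro r
    have h1 := hf₀' (r.relabel fun q : s => ⟨q.1, hsI q.1 q.2⟩)
    rw [Language.Term.realize_relabel, Language.Term.realize_relabel] at h1
    exact h1
  have hrel' : ∀ r : (exLang L t.Λ).Term s,
      f' (r.realize fun q : s => E₀.c ⟨q.1, hsI q.1 q.2⟩) =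
        r.realize fun q : s => E'.c (inl' ⟨q.1, hsI q.1 q.2⟩) := by
    intro r
    have h1 := hf'' (r.relabel fun q : s => ⟨q.1, hsI q.1 q.2⟩)
    rw [Language.Term.realize_relabel, Language.Term.realize_relabel] at h1
    exact h1
  have hc₀ : ∀ x, f₀ (c₀ x) = c x := fun x => (hrel _).trans (htc x)
  have hc₀' : ∀ x, f₀ (c₀' x) = c' x := fun x => (hrel _).trans (htc' x)
  -- the data in `I'`
  let s' : Set I' := inl' '' {q | q.1 ∈ s ∪ s₀} ∪ {inr' q₀}
  have hs' : #s' ≤ σ := by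
    refine (mk_union_le _ _).trans (add_le_of_le hσ0 (mk_image_le.trans ?_) ?_)
    · refine (mk_preimage_of_injective (Subtype.val : I₀ → I) (s ∪ s₀)
        Subtype.val_injective).trans ?_
      exact (mk_union_le _ _).trans (add_le_of_le hσ0 hs hs₀)
    · rw [mk_singleton]
      exact one_le_aleph0.trans hσ0
  let W' : F → Set I' := fun g => inl' '' {q | q.1 ∈ W g}
  let V' : Set I' := s' ∪ ((⋃ g, W' g) ∪ range inr')
  have hV' : θ ≤ #V' := by
    have h1 : #Q ≤ #V' := mk_le_of_injective (f := fun q : Q => (⟨inr' q,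
      Or.inr (Or.inr ⟨q, rfl⟩)⟩ : V')) fun q q' hq => hinr (congrArg Subtype.val hq)
    rwa [hQ] at h1
  have hs'mem : ∀ q : s, inl' ⟨q.1, hsI q.1 q.2⟩ ∈ s' := fun q => Or.inl ⟨_, Or.inl q.2, rfl⟩
  have hmix' : ∀ g, ∀ w ∈ V', w ∉ s' → ∀ w' ∈ V', w' ∉ s' → cut s' w = cut s' w' →
      w ∈ W' g → w' ∈ W' g := by
    rintro g w - hws w' hw' hws' hcut ⟨q, hq, rfl⟩
    rcases hw' with hw' | hw' | ⟨r, rfl⟩
    · exact absurd hw' hws'
    · obtain ⟨g', q', hq', rfl⟩ := mem_iUnion.1 hw'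
      refine ⟨q', hmix g q.1 hq (fun h1 => hws (Or.inl ⟨q, Or.inr h1, rfl⟩)) g' q'.1 hq'
        (fun h1 => hws' (Or.inl ⟨q', Or.inr h1, rfl⟩)) fun a ha => ?_, rfl⟩
      have h1 : inl' ⟨a, hs₀I a ha⟩ ∈ s' := Or.inl ⟨_, Or.inr ha, rfl⟩
      have h2 : ∀ p : I₀, (⟨_, h1⟩ : s') ∈ cut s' (inl' p) ↔ a < p.1 := fun p => by
        rw [mem_cut]
        exact Sum.Lex.inl_lt_inl_iff
      rw [← h2 q, ← h2 q', hcut]
    · exfalso
      have h1 : inr' q₀ ∈ s' := Or.inr rfl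
      have h2 : (⟨_, h1⟩ : s') ∈ cut s' (inr' r) := by
        rw [mem_cut]
        refine Sum.Lex.inr_lt_inr_iff.2 (lt_of_le_of_ne (hq₀ r) fun h3 => hws' ?_)
        rw [← h3]
        exact h1
      rw [← hcut, mem_cut] at h2
      exact absurd h2 (not_lt.2 (Sum.Lex.inl_le_inr _ _))
  let tc₁ : X → (exLang L t.Λ).Term s' := fun x => (tc x).relabel fun q => ⟨_, hs'mem q⟩
  let tc₂ : X → (exLang L t.Λ).Term s' := fun x => (tc' x).relabel fun q => ⟨_, hs'mem q⟩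
  have htc₁ : (fun x => (tc₁ x).realize fun q : s' => E'.c q) = fun x => f' (c₀ x) := by
    funext x
    rw [Language.Term.realize_relabel]
    exact (hrel' _).symm
  have htc₂ : (fun x => (tc₂ x).realize fun q : s' => E'.c q) = fun x => f' (c₀' x) := by
    funext x
    rw [Language.Term.realize_relabel]
    exact (hrel' _).symm
  have hsum : ∀ {ι : Type u} {M N : Type u} (f : M → N) (b : ι → M) (d : X → M),
      (fun k => f ((Sum.elim b d : ι ⊕ X → M) k)) =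
        Sum.elim (fun i => f (b i)) (fun x => f (d x)) := by
    intro ι M N f b d
    funext k
    rcases k with i | x <;> rfl
  -- elements of the pieces
  have hpiece : ∀ (g : F) (y : E'.N), y ∈ closure (exLang L t.Λ) (E'.c '' W' g) →
      ∃ b : E₀.N, f' b = y ∧ f₀ b ∈ closure (exLang L t.Λ) (E.c '' W g) := by
    intro g y hy
    obtain ⟨r, hr⟩ := (mem_closure_image_iff _ _ _).1 hy
    have h1 : ∀ q : W' g, ∃ p : I₀, p.1 ∈ W g ∧ inl' p = q.1 := fun q => q.2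
    choose p hp1 hp2 using h1
    refine ⟨r.realize fun q => E₀.c (p q), ?_, ?_⟩
    · have h2 := hf'' (r.relabel p)
      rw [Language.Term.realize_relabel, Language.Term.realize_relabel] at h2
      refine h2.trans (Eq.trans ?_ hr)
      congr 1
      funext q
      exact congrArg E'.c (hp2 q)
    · have h2 := hf₀' (r.relabel p)
      rw [Language.Term.realize_relabel, Language.Term.realize_relabel] at h2
      refine (mem_closure_image_iff _ _ _).2 ⟨r.relabel fun q => ⟨(p q).1, hp1 q⟩, ?_⟩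
      rw [Language.Term.realize_relabel]
      exact h2.symm
  -- the conclusion
  have hmain : ∀ a' : ι → E'.N, (∀ i, ∃ g, a' i ∈ closure (exLang L t.Λ) (E'.c '' W' g)) →
      EqS L ν (Sum.elim a' fun x => f' (c₀ x)) (Sum.elim a' fun x => f' (c₀' x)) := by
    intro a' ha'
    have h1 := tame_same hK hunb hst t hσ hα hκ hcof hHθ E' hI' s' V' hs' subset_union_left W'
      (fun g w hw => Or.inr (Or.inl (mem_iUnion.2 ⟨g, hw⟩))) hmix' hX tc₁ tc₂ (by
        intro ι b hι hb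
        choose g hg using hb
        choose b₀ hb₀ hb₁ using fun i => hpiece (g i) (b i) (hg i)
        have h2 := h ι (fun i => f₀ (b₀ i)) hι fun i => ⟨g i, hb₁ i⟩
        have h3 : c = fun x => f₀ (c₀ x) := funext fun x => (hc₀ x).symm
        have h4 : c' = fun x => f₀ (c₀' x) := funext fun x => (hc₀' x).symm
        have h5 : b = fun i => f' (b₀ i) := funext fun i => (hb₀ i).symm
        have h6 : #(ι ⊕ X) ≤ α (tH σ) := by
          rw [mk_sum, lift_id, lift_id]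
          exact (add_le_of_le hH0 hι (hX.trans (lt_tH' σ).le)).trans hHα
        rw [h3, h4, ← hsum, ← hsum, htr _ (hℓH.trans hHα) hαθ _ h6, hsum, hsum, ← h5] at h2
        rw [htc₁, htc₂]
        exact h2) hℓν ((hκ ν hνθ).le.trans hV') hXν hι a' ha'
    rw [htc₁, htc₂] at h1
    exact h1
  let ra₀ : ∀ i, (exLang L t.Λ).Term {q : W (f i) // q ∈ (ra i).varFinset} := fun i =>
    (ra i).restrictVar fun q => q
  have hra₀ : ∀ i {N : Type u} [(exLang L t.Λ).Structure N] (b : W (f i) → N),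
      (ra₀ i).realize (fun q => b q.1) = (ra i).realize b := by
    intro i N _ b
    exact Language.Term.realize_restrictVar b (by simp)
  let a₀ : ι → E₀.N := fun i => (ra₀ i).realize fun q => E₀.c ⟨q.1.1, hAI i q.1 q.2⟩
  have ha₀ : ∀ i, f₀ (a₀ i) = a i := by
    intro i
    have h1 := hf₀' ((ra₀ i).relabel fun q => ⟨q.1.1, hAI i q.1 q.2⟩)
    rw [Language.Term.realize_relabel, Language.Term.realize_relabel] at h1
    refine h1.trans (Eq.trans ?_ (hra i))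
    rw [← hra₀ i]
    rfl
  have ha₁ : ∀ i, f' (a₀ i) ∈ closure (exLang L t.Λ) (E'.c '' W' (f i)) := by
    intro i
    have h1 := hf'' ((ra₀ i).relabel fun q => ⟨q.1.1, hAI i q.1 q.2⟩)
    rw [Language.Term.realize_relabel, Language.Term.realize_relabel] at h1
    rw [mem_closure_image_iff]
    refine ⟨(ra₀ i).relabel fun q => ⟨inl' ⟨q.1.1, hAI i q.1 q.2⟩, ⟨_, q.1.2, rfl⟩⟩, ?_⟩
    rw [Language.Term.realize_relabel]
    exact h1.symm
  have h1 := hmain (fun i => f' (a₀ i)) fun i => ⟨f i, ha₁ i⟩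
  rw [← hsum f', ← hsum f', ← htr ν hℓν hνθ _ hιX, hsum, hsum] at h1
  have h2 : (fun i => f₀ (a₀ i)) = a := funext ha₀
  have h3 : (fun x => f₀ (c₀ x)) = c := funext hc₀
  have h4 : (fun x => f₀ (c₀' x)) = c' := funext hc₀'
  rw [h2, h3, h4] at h1
  exact h1

/-- **Tameness** over standard submodels: the type of a `σ`-tuple of `EM(I)` over `EM(W)` is
determined by its restrictions to the pieces of size `tH σ`. -/
theorem tame (hK : K.IsLS ℓ) (hunb : ∀ ν, ν < κf ν ∧ K.CategoricalIn (κf ν))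
    (hst : Stab K ℓ α (thr κf)) (t : Tpl K ℓ) {σ θ : Cardinal.{u}} (hσ : ℓ ≤ σ)
    (hα : ∀ ρ < θ, α ρ < θ) (hκ : ∀ ρ < θ, thr κf ρ < θ) (hcof : θ.ord.cof = ℵ₀)
    (hHθ : tH σ < θ) {I : Type u} [LinearOrder I] (E : EM t I) (hI : θ ≤ #I) (W : Set I)
    {X : Type u} (hX : #X ≤ σ) (c c' : X → E.N)
    (h : ∀ (ι : Type u) (a : ι → E.N), #ι ≤ tH σ →
      (∀ i, a i ∈ closure (exLang L t.Λ) (E.c '' W)) →
      EqS L (α (tH σ)) (Sum.elim a c) (Sum.elim a c'))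
    {ν : Cardinal.{u}} (hℓν : ℓ ≤ ν) (hνθ : ν < θ) (hXν : #X ≤ ν)
    {ι : Type u} (hι : #ι ≤ ν) (a : ι → E.N)
    (ha : ∀ i, a i ∈ closure (exLang L t.Λ) (E.c '' W)) :
    EqS L ν (Sum.elim a c) (Sum.elim a c') :=
  tame_family hK hunb hst t hσ hα hκ hcof hHθ E hI (fun _ : PUnit.{u + 1} => W) ∅ (by simp)
    (fun _ _ _ _ _ _ hw' _ _ => hw') hX c c'
    (fun ι a hι ha => h ι a hι fun i => (ha i).choose_spec) hℓν hνθ hXν hι a
    (fun i => ⟨PUnit.unit, ha i⟩)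

end Vale.Agent.P307.R2.H514
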