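import Vale.Agent.P307.R2.H1.Base

set_option linter.unusedSectionVars false

universe u v w

open FirstOrder Cardinal Set

namespace Vale.Agent.P307.R2.H514

open Vale.Agent.P307 Vale.Agent.P307.H304 Vale.Agent.P307.R2.H287 Vale.Agent.P307.R2.H971
  Vale.Agent.P307.R2.H1 Language.Structure Language.Substructure

variable {L : Language.{u, u}} {K : AEC L} {ℓ θ : Cardinal.{u}}
  {α κf : Cardinal.{u} → Cardinal.{u}} {t : Tpl K ℓ}

/-- Members of size `θ` are homogeneous for small tuples. -/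
theorem exists_iso_small (h₀ : BasePt K ℓ κf α θ) (hK : K.IsLS ℓ)
    (hst : Stab K ℓ α (Vale.Agent.P307.R2.H287.thr κf)) {σ : Cardinal.{u}} (hσ : ℓ ≤ σ) (hσθ : σ < θ) {M N : Type u} [L.Structure M] [L.Structure N] (hM : K.mem M)
    (hN : K.mem N) (hMc : #M = θ) (hNc : #N = θ) {P : Type u} (hP : #P ≤ σ) (r : P → M)
    (s : P → N) (h : EqS L (α σ) r s) : ∃ e : M ≃[L] N, ∀ z, e (r z) = s z := by
  have hθ := h₀.pt
  have hθ0 : ℵ₀ ≤ θ := hK.1.trans hθ.lt.le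
  obtain ⟨e, he⟩ := exists_equiv_of_sys (isSys_of_stab hK.1 hst h₀.al hθ.thr hM hN hMc.ge hNc.ge)
    hθ0 hθ.cof hMc hNc (R := range fun z => (r z, s z)) ⟨σ, hσθ, hσ, mk_range_le.trans hP, h⟩
  exact ⟨e, fun z => he _ ⟨z, rfl⟩⟩

/-- Saturated members of size `θ⁺` are homogeneous for small tuples. -/
theorem exists_aut_small (h₀ : BasePt K ℓ κf α θ) (hK : K.IsLS ℓ)
    (hunb : ∀ ν, ν < κf ν ∧ K.CategoricalIn (κf ν))
    (hst : Stab K ℓ α (Vale.Agent.P307.R2.H287.thr κf)) {σ : Cardinal.{u}} (hσ : ℓ ≤ σ) (hσθ : σ < θ) {C C' : Type u} [L.Structure C] [L.Structure C']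
    (hCm : K.mem C) (hCm' : K.mem C')
    (hC : #C = Order.succ θ) (hC' : #C' = Order.succ θ) (hs : Sat K θ C) (hs' : Sat K θ C')
    {P : Type u} (hP : #P ≤ σ) (r : P → C) (s : P → C') (h : EqS L (α σ) r s) :
    ∃ g : C ≃[L] C', ∀ z, g (r z) = s z := by
  have hθ := h₀.pt
  have hθ0 : ℵ₀ ≤ θ := hK.1.trans hθ.lt.le
  have hσα : σ ≤ α σ := (hst σ hσ).1
  obtain ⟨B, hB1, hB2, hB3⟩ := exists_sub_card hK hθ.lt.le hCm ((Order.le_succ θ).trans hC.ge)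
    (range r) (mk_range_le.trans (hP.trans hσθ.le))
  obtain ⟨B', hB1', hB2', hB3'⟩ := exists_sub_card hK hθ.lt.le hCm'
    ((Order.le_succ θ).trans hC'.ge) (range s) (mk_range_le.trans (hP.trans hσθ.le))
  have hB0 : K.Emb B.subtype := AEC.emb_subtype.2 hB1
  have hB0' : K.Emb B'.subtype := AEC.emb_subtype.2 hB1'
  let r' : P → B := fun z => ⟨r z, hB2 ⟨z, rfl⟩⟩
  let s' : P → B' := fun z => ⟨s z, hB2' ⟨z, rfl⟩⟩
  have h1 := EqS.map_emb hK hunb (hσ.trans hσα) B.subtype hB0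
    ((hθ.thr _ (h₀.al σ hσθ)).le.trans hB3.ge) (hP.trans hσα) r'
  have h2 := EqS.map_emb hK hunb (hσ.trans hσα) B'.subtype hB0'
    ((hθ.thr _ (h₀.al σ hσθ)).le.trans hB3'.ge) (hP.trans hσα) s'
  have h3 : EqS L (α σ) r' s' := (h1.trans h).trans h2.symm
  obtain ⟨e, he⟩ := exists_iso_small h₀ hK hst hσ hσθ hB0.mem_left hB0'.mem_left hB3 hB3' hP r' s' h3
  obtain ⟨g, hg⟩ := hs.exists_iso hK hθ.lt.le hs' hC hC' B.subtype
    (B'.subtype.comp e.toEmbedding) hB0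
    (AEC.Emb.comp hB0' (AEC.Emb.of_equiv e hB0.mem_left)) hB3
  refine ⟨g, fun z => (hg (r' z)).trans ?_⟩
  change B'.subtype (e (r' z)) = s z
  rw [he]
  rfl

end Vale.Agent.P307.R2.H514
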