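import Vale.Agent.P307.R2.H514.TCore2

set_option linter.unusedSectionVars false

universe u v w

open FirstOrder Cardinal Set

namespace Vale.Agent.P307.R2.H514

open Vale.Agent.P307 Vale.Agent.P307.H304 Vale.Agent.P307.R2.H287 Language.Structure
  Language.Substructure

/-- The step function of the gaps. -/
noncomputable def gStep (h : Cardinal.{u}) : Cardinal.{u} := max (Order.succ h) (hanf (2 ^ h))

/-- The Hanf number of tameness. -/
noncomputable def tH (σ : Cardinal.{u}) : Cardinal.{u} := (exists_gap (2 ^ σ) gStep).choose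

theorem tH_spec (σ : Cardinal.{u}) : ∀ (Γ : Type u) (k : Γ → Cardinal.{u}), #Γ ≤ 2 ^ σ →
    ∃ h, 2 ^ σ ≤ h ∧ gStep h ≤ tH σ ∧ ∀ γ, k γ ≤ h ∨ gStep h ≤ k γ :=
  (exists_gap (2 ^ σ) gStep).choose_spec

theorem lt_tH (σ : Cardinal.{u}) : 2 ^ σ < tH σ := by
  obtain ⟨h, h1, h2, -⟩ := tH_spec σ PEmpty.{u + 1} (fun x => x.elim) (by simp)
  exact h1.trans_lt ((Order.lt_succ h).trans_le ((le_max_left _ _).trans h2))

theorem lt_tH' (σ : Cardinal.{u}) : σ < tH σ := (cantor σ).trans (lt_tH σ)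

variable {L : Language.{u, u}} {K : AEC L} {ℓ : Cardinal.{u}}
  {α κf : Cardinal.{u} → Cardinal.{u}}

/-- Tameness: the case of size `θ`. -/
theorem tame_same (hK : K.IsLS ℓ) (hunb : ∀ ν, ν < κf ν ∧ K.CategoricalIn (κf ν))
    (hst : Stab K ℓ α (thr κf)) (t : Tpl K ℓ) {σ θ : Cardinal.{u}} (hσ : ℓ ≤ σ)
    (hα : ∀ ρ < θ, α ρ < θ) (hκ : ∀ ρ < θ, thr κf ρ < θ) (hcof : θ.ord.cof = ℵ₀)
    (hHθ : tH σ < θ) {I : Type u} [LinearOrder I] (E : EM t I) (hI : #I = θ)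
    (s V : Set I) (hs : #s ≤ σ) (hsV : s ⊆ V) {F : Type u} (W : F → Set I)
    (hWV : ∀ f, W f ⊆ V)
    (hmix : ∀ f, ∀ w ∈ V, w ∉ s → ∀ w' ∈ V, w' ∉ s → cut s w = cut s w' → w ∈ W f → w' ∈ W f)
    {X : Type u} (hX : #X ≤ σ) (tc tc' : X → (exLang L t.Λ).Term s)
    (h : ∀ (ι : Type u) (a : ι → E.N), #ι ≤ tH σ →
      (∀ i, ∃ f, a i ∈ closure (exLang L t.Λ) (E.c '' W f)) →
      EqS L (α (tH σ)) (Sum.elim a fun x => (tc x).realize fun q : s => E.c q)
        (Sum.elim a fun x => (tc' x).realize fun q : s => E.c q))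
    {ν : Cardinal.{u}} (hℓν : ℓ ≤ ν) (hVν : thr κf ν ≤ #V) (hXν : #X ≤ ν)
    {ι : Type u} (hι : #ι ≤ ν) (a : ι → E.N)
    (ha : ∀ i, ∃ f, a i ∈ closure (exLang L t.Λ) (E.c '' W f)) :
    EqS L ν (Sum.elim a fun x => (tc x).realize fun q : s => E.c q)
      (Sum.elim a fun x => (tc' x).realize fun q : s => E.c q) := by
  classical
  have hℓ := hK.1
  have hσ0 : ℵ₀ ≤ σ := hℓ.trans hσ
  have hH0 : ℵ₀ ≤ tH σ := hσ0.trans (lt_tH' σ).le
  have hℓH : ℓ ≤ tH σ := hσ.trans (lt_tH' σ).le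
  have hℓθ : ℓ ≤ θ := hℓH.trans hHθ.le
  have hZ : #E.N = θ := E.card_eq hℓθ hI
  -- the classes
  let cl : Set s → Set I := fun C => {w | w ∈ V ∧ w ∉ s ∧ cut s w = C}
  have hΓ : #(Set s) ≤ 2 ^ σ := by
    rw [mk_set]
    exact power_le_power_left two_ne_zero hs
  obtain ⟨l, hl1, hl2, hl3⟩ := tH_spec σ (Set s) (fun C => #(cl C)) hΓ
  have hσl : σ ≤ l := (cantor σ).le.trans hl1
  have hl0 : ℵ₀ ≤ l := hσ0.trans hσl
  have hℓl : ℓ ≤ l := hσ.trans hσl
  have hlH : l ≤ tH σ := (Order.le_succ l).trans ((le_max_left _ _).trans hl2)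
  let T₀ : Set I := s ∪ ⋃ C : {C : Set s // #(cl C) ≤ l}, cl C.1
  have hT₀ : #T₀ ≤ l := by
    refine (mk_union_le _ _).trans (add_le_of_le hl0 (hs.trans hσl) ?_)
    exact mk_iUnion_le_of_le hl0 ((mk_subtype_le _).trans (hΓ.trans hl1)) _ fun C => C.2
  have hmemT : ∀ w ∈ V, w ∉ s → #(cl (cut s w)) ≤ l → w ∈ T₀ := fun w hw hws hwl =>
    Or.inr (mem_iUnion.2 ⟨⟨cut s w, hwl⟩, hw, hws, rfl⟩)
  have hbig : ∀ w ∈ V, w ∉ T₀ → w ∉ s ∧ ¬ #(cl (cut s w)) ≤ l := fun w hw hwT =>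
    ⟨fun h => hwT (Or.inl h), fun h => hwT (hmemT w hw (fun h => hwT (Or.inl h)) h)⟩
  let J : Type u := (hanf (2 ^ l)).ord.ToType
  have hJ : #J = hanf (2 ^ l) := mk_ord_toType _
  have hJH : #J ≤ tH σ := hJ.le.trans ((le_max_right _ _).trans hl2)
  have hJne : Nonempty J := by
    rw [← mk_ne_zero_iff, hJ]
    exact (aleph0_pos.trans_le (aleph0_le_hanf _)).ne'
  have hIne : Nonempty I := by
    rw [← mk_ne_zero_iff, hI]
    exact (pos_of_gt hHθ).ne'
  have hjex : ∀ C : Set s, ∃ j : J → I, ¬ #(cl C) ≤ l → Function.Injective j ∧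
      ∀ ξ, j ξ ∈ cl C := by
    intro C
    by_cases hC : #(cl C) ≤ l
    · exact ⟨fun _ => hIne.some, fun h => absurd hC h⟩
    · have h1 : #J ≤ #(cl C) := by
        rw [hJ]
        exact (le_max_right _ _).trans ((hl3 C).resolve_left hC)
      obtain ⟨i⟩ := (Cardinal.le_def _ _).1 h1
      exact ⟨fun ξ => (i ξ).1, fun _ => ⟨Subtype.val_injective.comp i.injective,
        fun ξ => (i ξ).2⟩⟩
  choose j hj using hjex
  -- the fixed part
  let Y : Set I := T₀ ∪ ⋃ C : Set s, range (j C)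
  have hY : #Y ≤ tH σ := by
    refine (mk_union_le _ _).trans (add_le_of_le hH0 (hT₀.trans hlH) ?_)
    exact mk_iUnion_le_of_le hH0 (hΓ.trans (lt_tH σ).le) _ fun C => mk_range_le.trans hJH
  let A₀ : Set E.N := {y | ∃ f, y ∈ closure (exLang L t.Λ) (E.c '' (W f ∩ Y))}
  have hA₀ : #A₀ ≤ tH σ := by
    have h1 : A₀ ⊆ range fun r : (exLang L t.Λ).Term Y => r.realize fun q : Y => E.c q := by
      rintro y ⟨f, hf⟩
      have h2 : y ∈ closure (exLang L t.Λ) (E.c '' Y) :=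
        closure_mono (image_mono inter_subset_right) hf
      obtain ⟨r, hr⟩ := (mem_closure_image_iff _ _ _).1 h2
      exact ⟨r, hr⟩
    exact (mk_le_mk_of_subset h1).trans (mk_range_le.trans
      (mk_term_le hH0 (t.hx.trans hℓH) Y hY))
  -- the automorphism
  obtain ⟨e, he⟩ : ∃ e : E.N ≃[L] E.N, (∀ y ∈ A₀, e y = y) ∧
      ∀ x, e ((tc x).realize fun q : s => E.c q) = (tc' x).realize fun q : s => E.c q := by
    have h1 := h A₀ (fun y => y.1) hA₀ fun y => by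
      obtain ⟨f, hf⟩ := y.2
      exact ⟨f, closure_mono (image_mono inter_subset_left) hf⟩
    have hcard : #(A₀ ⊕ X) ≤ tH σ := by
      rw [mk_sum, lift_id, lift_id]
      exact add_le_of_le hH0 hA₀ (hX.trans (lt_tH' σ).le)
    obtain ⟨e, he⟩ := exists_equiv_of_sys (isSys_of_stab hK.1 hst hα hκ E.mem E.mem hZ.ge hZ.ge)
      (hH0.trans hHθ.le) hcof hZ hZ ⟨tH σ, hHθ, hℓH, mk_range_le.trans hcard, h1⟩
    exact ⟨e, fun y hy => he _ ⟨Sum.inl ⟨y, hy⟩, rfl⟩, fun x => he _ ⟨Sum.inr x, rfl⟩⟩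
  -- the stretching
  have hxex : ∃ x : J → E.N, Function.Injective x := by
    have h1 : #J ≤ #E.N := by
      rw [hZ]
      exact hJH.trans hHθ.le
    obtain ⟨i⟩ := (Cardinal.le_def _ _).1 h1
    exact ⟨i, i.injective⟩
  obtain ⟨x, hx⟩ := hxex
  have hZne : Nonempty E.N := ⟨x hJne.some⟩
  have hclZ : Gr.Cl1 K (exHom L t.Λ) E.N := (t.cl.transfer fun A => by
    obtain ⟨ρ⟩ := Gr.isEM_local E.isEM E.top A
    exact ⟨ρ, ρ.injective⟩).2
  obtain ⟨P, sP, xP, eP, v, g, hclP, hv, hg⟩ := core hclZ E.isEM E.inj hl0 (t.hL.trans hℓl)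
    (t.hΛ.trans hℓl) s T₀ V subset_union_left
    ((power_le_power_left two_ne_zero hs).trans hl1) hT₀ hJ.ge x hx j
    (fun w hw hwT => (hj _ (hbig w hw hwT).2).1)
    (fun w hw hwT ξ => ((hj _ (hbig w hw hwT).2).2 ξ).2)
    (fun τ hτ hτs w hw hwT hcut => by
      rcases hτ with hτ | hτ
      · exact hτs hτ
      · obtain ⟨⟨C, hC⟩, h1, h2, h3⟩ := mem_iUnion.1 hτ
        have h4 : #(cl (cut s τ)) ≤ l := by
          rw [show cut s τ = C from h3]
          exact hC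
        rw [hcut] at h4
        exact (hbig w hw hwT).2 h4) e
  obtain ⟨e₂, he₂⟩ := Gr.exists_closure_equiv hv
  let SV := closure (exLang L t.Λ) (range fun w : V => E.c w)
  let S' : L.Substructure E.N := (exHom L t.Λ).substructureReduct SV
  have hS' : K.le S' := hclZ _
  let e₁ : S' ↪[L] P := Gr.subEmb (exHom L t.Λ) SV
    ((closure (exLang L t.Λ) (range v)).subtype.comp e₂.toEmbedding)
  have he₁ : K.Emb e₁ := hclP.emb SV _
  have hS'ν : thr κf ν ≤ #S' := by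
    refine hVν.trans (mk_le_of_injective (f := fun w : V => (⟨E.c w, subset_closure ⟨w, rfl⟩⟩ : S'))
      fun w w' hww => ?_)
    exact Subtype.ext (E.inj (congrArg Subtype.val hww))
  have hreal : ∀ (r : (exLang L t.Λ).Term V) (hr : (r.realize fun w : V => E.c w) ∈ SV),
      e₁ ⟨_, hr⟩ = r.realize v := fun r hr => he₂ r hr
  have hin : ∀ r : (exLang L t.Λ).Term V, (r.realize fun w : V => E.c w) ∈ SV := fun r =>
    Gr.mem_closure_range.2 ⟨r, rfl⟩
  -- the terms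
  choose f hf using ha
  have hra : ∀ i, ∃ r : (exLang L t.Λ).Term (W (f i)), r.realize (fun q => E.c q.1) = a i :=
    fun i => (mem_closure_image_iff _ _ _).1 (hf i)
  choose ra hra using hra
  let ra' : ι → (exLang L t.Λ).Term V := fun i =>
    (ra i).relabel fun q => ⟨q.1, hWV (f i) q.2⟩
  let tc₁ : X → (exLang L t.Λ).Term V := fun x => (tc x).relabel fun q => ⟨q.1, hsV q.2⟩
  let tc₂ : X → (exLang L t.Λ).Term V := fun x => (tc' x).relabel fun q => ⟨q.1, hsV q.2⟩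
  have h1 : ∀ i, g ((ra' i).realize v) = (ra' i).realize v := by
    intro i
    refine hg _ _ fun φ hφ1 hφ2 => he.1 _ ⟨f i, ?_⟩
    rw [mem_closure_image_iff]
    have h2 : ∀ q : W (f i), φ ⟨q.1, hWV (f i) q.2⟩ ∈ W (f i) ∩ Y := by
      intro q
      by_cases hq : q.1 ∈ T₀
      · rw [hφ1 ⟨q.1, hWV (f i) q.2⟩ hq]
        exact ⟨q.2, Or.inl hq⟩
      · obtain ⟨ξ, hξ⟩ := hφ2 ⟨q.1, hWV (f i) q.2⟩ hq
        obtain ⟨h3, h4⟩ := hbig q.1 (hWV (f i) q.2) hq
        obtain ⟨h5, h6, h7⟩ := (hj _ h4).2 ξ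
        rw [← hξ]
        exact ⟨hmix (f i) q.1 (hWV (f i) q.2) h3 _ h5 h6 h7.symm q.2,
          Or.inr (mem_iUnion.2 ⟨_, ξ, rfl⟩)⟩
    refine ⟨(ra i).relabel fun q => ⟨_, h2 q⟩, ?_⟩
    rw [Language.Term.realize_relabel, Language.Term.realize_relabel]
    rfl
  have h2 : ∀ x, g ((tc₁ x).realize v) = (tc₂ x).realize v := by
    intro x
    refine hg _ _ fun φ hφ1 hφ2 => ?_
    have h3 : ((fun w : V => E.c (φ w)) ∘ fun q : s => ⟨q.1, hsV q.2⟩) = fun q : s => E.c q := by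
      funext q
      change E.c (φ ⟨q.1, hsV q.2⟩) = _
      rw [hφ1 ⟨q.1, hsV q.2⟩ (Or.inl q.2)]
    rw [Language.Term.realize_relabel, Language.Term.realize_relabel, h3]
    exact he.2 x
  have hν0 : ℵ₀ ≤ ν := hℓ.trans hℓν
  have hιX : #(ι ⊕ X) ≤ ν := by
    rw [mk_sum, lift_id, lift_id]
    exact add_le_of_le hν0 hι hXν
  let b : ι ⊕ X → S' := Sum.elim (fun i => ⟨_, hin (ra' i)⟩) fun x => ⟨_, hin (tc₁ x)⟩
  let b' : ι ⊕ X → S' := Sum.elim (fun i => ⟨_, hin (ra' i)⟩) fun x => ⟨_, hin (tc₂ x)⟩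
  have h3 : EqS L ν (fun k => e₁ (b k)) (fun k => e₁ (b' k)) := by
    have h4 : (fun k => e₁ (b' k)) = fun k => g (e₁ (b k)) := by
      funext k
      rcases k with i | x
      · change e₁ ⟨_, hin (ra' i)⟩ = g (e₁ ⟨_, hin (ra' i)⟩)
        rw [hreal, h1]
      · change e₁ ⟨_, hin (tc₂ x)⟩ = g (e₁ ⟨_, hin (tc₁ x)⟩)
        rw [hreal, hreal, h2]
    rw [h4]
    exact eqS_of_equiv hν0 hιX g _
  have h4 : EqS L ν b b' := (eqS_emb_iff hK hunb hℓν hιX e₁ he₁ hS'ν b b').1 h3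
  have h5 : EqS L ν (fun k => S'.subtype (b k)) (fun k => S'.subtype (b' k)) :=
    (eqS_emb_iff hK hunb hℓν hιX S'.subtype (AEC.emb_subtype.2 hS') hS'ν b b').2 h4
  have h6 : (fun k => S'.subtype (b k)) =
      Sum.elim a fun x => (tc x).realize fun q : s => E.c q := by
    funext k
    rcases k with i | x
    · change (ra' i).realize _ = a i
      rw [Language.Term.realize_relabel, ← hra i]
      rfl
    · change (tc₁ x).realize _ = (tc x).realize _
      rw [Language.Term.realize_relabel]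
      rfl
  have h7 : (fun k => S'.subtype (b' k)) =
      Sum.elim a fun x => (tc' x).realize fun q : s => E.c q := by
    funext k
    rcases k with i | x
    · change (ra' i).realize _ = a i
      rw [Language.Term.realize_relabel, ← hra i]
      rfl
    · change (tc₂ x).realize _ = (tc' x).realize _
      rw [Language.Term.realize_relabel]
      rfl
  rw [h6, h7] at h5
  exact h5

end Vale.Agent.P307.R2.H514
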