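import Vale.Agent.P307.R2.H514.UnivBlk
import Vale.Agent.P307.R2.H427.Chart2

/-!
The last bound of a standard family may be enlarged so that the face contains a copy of an
arbitrary model over the boundary.
-/

set_option linter.unusedSectionVars false

universe u v

open FirstOrder Cardinal Set Function

namespace Vale.Agent.P307.R2.H427

open Vale.Agent.P307 Vale.Agent.P307.H304 Vale.Agent.P307.R2.H287 Vale.Agent.P307.R2.H1
  Vale.Agent.P307.R2.H806 Vale.Agent.P307.R2.H971 Vale.Agent.P307.R2.H541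
  Language.Structure Language.Substructure
open Vale.Agent.P307.R2.H68 (part Blk mk_part_le le_mk_part mk_blk part_mono)
open Vale.Agent.P307.R2.H533 (iun ibd IFam IRef)

open scoped Classical

variable {ι : Type v} {L : Language.{u, u}} {K : AEC L} {ℓ θ σ : Cardinal.{u}}
  {κf α : Cardinal.{u} → Cardinal.{u}} {C : Type u} [L.Structure C]

namespace Chart

variable {c : Chart ι K ℓ θ σ C} {b : Finset ι → SuccTy θ} {v w : Finset ι}

variable (c) in
/-- The index set of the boundary of a face. -/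
def Sb (b : Finset ι → SuccTy θ) (v : Finset ι) : Set (Reg θ c.m) :=
  {p | (∃ i, p = rp i 2 c.a₀) ∨ ∃ i, c.r i ⊂ v ∧ ∃ x ≤ c.bd b (c.r i), p = rp i 0 x}

theorem Sb_sub : c.Sb b v ⊆ c.Sx b v := by
  rintro p (hp | ⟨i, h1, h2⟩)
  · exact Or.inl hp
  · exact Or.inr ⟨i, h1.1, h2⟩

theorem Sx_sub_Sb (h : w ⊂ v) : c.Sx b w ⊆ c.Sb b v := by
  rintro p (hp | ⟨i, h1, h2⟩)
  · exact Or.inl hp
  · exact Or.inr ⟨i, lt_of_le_of_lt h1 h, h2⟩

theorem le_mk_Sb (hv : v.Nonempty) : θ ≤ #(c.Sb b v) :=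
  le_mk_Sx.trans (mk_le_mk_of_subset (Sx_sub_Sb (w := ∅) (Finset.empty_ssubset.2 hv)))

theorem ibd_St_sub : ibd (c.St b) v ⊆ c.e '' (hullL c.E (part (c.Sb b v)) : Set c.E.N) := by
  rintro x ⟨w, hw, hx⟩
  exact image_mono (hullL_mono c.E (part_mono (Sx_sub_Sb hw))) hx

/-- The boundary and an initial segment of the region of the face. -/
theorem Sb_update_sub (b : Finset ι → SuccTy θ) {i : Fin c.m} (hi : c.r i = v) (hv : v.Nonempty)
    (a : SuccTy θ) : c.Sb b v ∪ rp i 0 '' Iio a ⊆ c.Sx (update b v a) v := by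
  rintro p (hp | ⟨x, hx, rfl⟩)
  · rcases hp with hp | ⟨j, h1, x, h2, h3⟩
    · exact Or.inl hp
    · refine Or.inr ⟨j, h1.1, x, ?_, h3⟩
      have h4 : c.bd (update b v a) (c.r j) = c.bd b (c.r j) := by
        unfold bd
        by_cases h5 : c.r j = ∅
        · rw [if_pos h5, if_pos h5]
        · rw [if_neg h5, if_neg h5, update_of_ne h1.ne]
      rw [h4]
      exact h2
  · refine reg_mem.2 ⟨hi.subset, ?_⟩
    unfold bd
    rw [if_neg (by rw [hi]; exact hv.ne_empty), hi, update_self]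
    exact (mem_Iio.1 hx).le

theorem Sb_cut {i : Fin c.m} (hi : c.r i = v) {p : Reg θ c.m} (hp : p ∈ c.Sb b v) :
    (∀ x, p < rp i 0 x) ∨ ∀ x, rp i 0 x < p := by
  rcases hp with ⟨j, rfl⟩ | ⟨j, h1, y, -, rfl⟩
  · rcases lt_trichotomy j i with h | h | h
    · exact Or.inl fun x => rp_lt.2 (Or.inl h)
    · exact Or.inr fun x => rp_lt.2 (Or.inr ⟨h.symm, Or.inl (by decide)⟩)
    · exact Or.inr fun x => rp_lt.2 (Or.inl h)
  · rcases lt_trichotomy j i with h | h | h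
    · exact Or.inl fun x => rp_lt.2 (Or.inl h)
    · rw [h, hi] at h1
      exact absurd h1 (lt_irrefl v)
    · exact Or.inr fun x => rp_lt.2 (Or.inl h)

end Chart

section

variable (h₀ : BasePt K ℓ κf α θ) (hK : K.IsLS ℓ)
  (hunb : ∀ ν, ν < κf ν ∧ K.CategoricalIn (κf ν)) (hst : Stab K ℓ α (H287.thr κf))
  (hCm : K.mem C) (hs : Sat K θ C) (hCc : #C = Order.succ θ)

/-- **The gap lemma** for the standard families. -/
theorem Chart.gap (hσ : ℓ ≤ σ) (hσθ : σ < θ) (c : Chart ι K ℓ θ σ C)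
    (b : Finset ι → SuccTy θ) {v : Finset ι} (hv : v.Nonempty) (hi : ∃ i, c.r i = v)
    {D : Set C} (hD : #D ≤ θ) {Z : Set C} (hZ : Z ⊆ ibd (c.St b) v) :
    ∃ a, ∃ g ∈ (pg h₀ hK hunb hst hCm hs hCc).G, (∀ z ∈ Z, g z = z) ∧
      g '' D ⊆ c.St (update b v a) v := by
  obtain ⟨i, hi⟩ := hi
  have hθ := aleph0_le_pt h₀ hK
  have hB : #(Blk σ) ≤ θ := (mk_blk (hK.1.trans hσ)).trans (h₀.pow σ hσθ).le
  have hB0 : Nonempty (Blk σ) := inferInstance
  obtain ⟨β⟩ := hB0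
  let s : SuccTy θ → Reg θ c.m ×ₗ Blk σ := fun x => toLex (rp i 0 x, β)
  have hsm : StrictMono s := fun x y hxy =>
    Prod.Lex.lt_iff.2 (Or.inl (rp_lt.2 (Or.inr ⟨rfl, Or.inr ⟨rfl, hxy⟩⟩)))
  have hZc : #(part (c.Sb b v) : Set (Reg θ c.m ×ₗ Blk σ)) = θ :=
    le_antisymm (mk_part_le hθ ((mk_le_mk_of_subset Chart.Sb_sub).trans (Chart.mk_Sx_le hθ)) hB)
      (le_mk_part (Chart.le_mk_Sb hv))
  have hcut : ∀ z ∈ (part (c.Sb b v) : Set (Reg θ c.m ×ₗ Blk σ)),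
      (∀ x, z < s x) ∨ ∀ x, s x < z := by
    intro z hz
    rcases Chart.Sb_cut hi hz with h | h
    · exact Or.inl fun x => Prod.Lex.lt_iff.2 (Or.inl (h x))
    · exact Or.inr fun x => Prod.Lex.lt_iff.2 (Or.inl (h x))
  obtain ⟨g, hg, h1, a, h2⟩ := H514.pg_gap_block h₀ hK hunb hst hCm hs hCc h₀.pt.lt.le c.E
    c.e.toEmbedding (AEC.Emb.of_equiv c.e (K.mem_iso c.e.symm hCm)) s hsm hZc hcut hD
  refine ⟨a, g, hg, fun z hz => h1 z (Chart.ibd_St_sub (hZ hz)), h2.trans ?_⟩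
  refine image_mono (hullL_mono c.E ?_)
  rintro z (hz | ⟨x, hx, rfl⟩)
  · exact Chart.Sb_update_sub b hi hv a (Or.inl hz)
  · exact Chart.Sb_update_sub b hi hv a (Or.inr ⟨x, hx, rfl⟩)

end

end Vale.Agent.P307.R2.H427
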