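import Vale.Agent.P307.R2.H301.Typ
import Vale.Agent.P307.R2.H514.Tame

set_option linter.unusedSectionVars false

universe u v w

open FirstOrder Cardinal Set

namespace Vale.Agent.P307.R2.H514

open Vale.Agent.P307 Vale.Agent.P307.H304 Vale.Agent.P307.R2.H287 Vale.Agent.P307.R2.H301
  Language.Structure Language.Substructure

variable {L : Language.{u, u}}

/-- Tameness over standard models. -/
theorem ctx_exists_H (X : Ctx L) : ∃ H, X.l ≤ H ∧ ∀ θ, X.Adm θ → H < θ →
    ∀ (A : EM X.t θ.ord.ToType)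
    (J : Type u) [LinearOrder J] (B : EM X.t J) (σ : θ.ord.ToType → J) (_ : StrictMono σ)
    (f : A.N ↪[L] B.N) (_ : ∀ s : (exLang L X.t.Λ).Term θ.ord.ToType,
      f (s.realize A.c) = s.realize fun i => B.c (σ i)) (Q Q' : Type u) [Finite Q] [Finite Q']
    (τ : (exLang L X.t.Λ).Term Q) (τ' : (exLang L X.t.Λ).Term Q') (v : Q → J) (v' : Q' → J),
    X.SE θ H f (τ.realize fun q => B.c (v q)) f (τ'.realize fun q => B.c (v' q)) → ∀ χ < θ,
      X.SE θ χ f (τ.realize fun q => B.c (v q)) f (τ'.realize fun q => B.c (v' q)) := by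
  have hℓα : X.l ≤ tH X.l := (lt_tH' X.l).le
  have hHα : tH X.l ≤ X.α (tH X.l) := (X.hα _ hℓα).1
  refine ⟨X.α (tH X.l), hℓα.trans hHα, ?_⟩
  intro θ hθ hHθ A J _ B σ hσ f hf Q Q' _ _ τ τ' v v' hSE χ hχ D hD ν hν1 hν2 hν3
  have hJ : θ ≤ #J := by
    have h1 := mk_le_of_injective hσ.injective
    rwa [mk_ord_toType] at h1
  have hX0 : ℵ₀ ≤ X.l := X.aleph0_le
  have hDν : #D ≤ ν := (mk_le_of_injective Sum.inl_injective).trans hν3
  have hpre : ∀ x, x ∈ closure (exLang L X.t.Λ) (B.c '' range σ) → ∃ a : A.N, f a = x := by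
    intro x hx
    obtain ⟨r, hr⟩ := (mem_closure_image_iff _ _ _).1 hx
    choose g hg using fun q : range σ => q.2
    refine ⟨(r.relabel g).realize A.c, ?_⟩
    rw [hf, ← hr, Language.Term.realize_relabel]
    congr 1
    funext q
    exact congrArg B.c (hg q)
  refine tame X.hK X.hunb X.hα X.t le_rfl hθ.α hθ.thr hθ.cof (hHα.trans_lt hHθ) B hJ (range σ)
    (X := PUnit.{u + 1}) (by simpa using one_lt_aleph0.le.trans hX0) (fun _ => _) (fun _ => _) ?_
    hν1 hν2 (by simpa using one_lt_aleph0.le.trans (hX0.trans hν1)) hDν (fun d : D => f d) ?_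
  · intro ι a hι ha
    choose b hb using fun i => hpre _ (ha i)
    have h1 : X.E θ (Ctx.adj (fun d : range b => f d) (τ.realize fun q => B.c (v q)))
        (Ctx.adj (fun d : range b => f d) (τ'.realize fun q => B.c (v' q))) :=
      hSE (range b) (mk_range_le.trans (hι.trans hHα))
    have h2 := h1 (X.α (tH X.l)) (hℓα.trans hHα) hHθ (by
      rw [mk_sum, lift_id, lift_id]
      refine add_le_of_le (hX0.trans (hℓα.trans hHα)) (mk_range_le.trans (hι.trans hHα)) ?_
      simpa using one_lt_aleph0.le.trans (hX0.trans (hℓα.trans hHα)))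
    have h3 := EqS.comp h2 (Sum.map (fun i => (⟨b i, i, rfl⟩ : range b)) id)
    have h4 : ∀ z : B.N, (fun x => Ctx.adj (fun d : range b => f d) z
        (Sum.map (fun i => (⟨b i, i, rfl⟩ : range b)) id x)) =
        Sum.elim a fun _ : PUnit.{u + 1} => z := by
      intro z
      funext x
      rcases x with i | x
      · exact hb i
      · rfl
    rw [h4, h4] at h3
    exact h3
  · rintro ⟨d, hd⟩
    have h1 : d ∈ closure (exLang L X.t.Λ) (A.c '' univ) := by
      rw [image_univ]
      exact A.top ▸ mem_top d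
    obtain ⟨r, hr⟩ := (mem_closure_image_iff _ _ _).1 h1
    change f d ∈ _
    rw [mem_closure_image_iff]
    refine ⟨r.relabel fun q => ⟨σ q.1, q.1, rfl⟩, ?_⟩
    rw [Language.Term.realize_relabel]
    have h2 := hf (r.relabel fun q => q.1)
    rw [Language.Term.realize_relabel, Language.Term.realize_relabel] at h2
    rw [← hr]
    exact h2.symm

end Vale.Agent.P307.R2.H514
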