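import Vale.Agent.P307.R2.H806.Tail

/-!
A linear order of size `θ` in which every well order of size at most `θ` embeds: the finite
sequences of ordinals below `θ`, ordered lexicographically.
-/

set_option linter.unusedSectionVars false

universe u

open Cardinal Set

namespace Vale.Agent.P307.R2.H514

/-- One step. -/
theorem exists_strictMono_list_step {B Y : Type u} [LinearOrder B] [WellFoundedLT B]
    [LinearOrder Y] (e : Y → B) (he : Function.Injective e)
    (h : ∀ z : Y, ∃ g : Iic z → List B, StrictMono g) : ∃ f : Y → List B, StrictMono f := by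
  classical
  choose g hg using h
  have hne : ∀ y : Y, (e '' Ici y).Nonempty := fun y => ⟨e y, y, le_rfl, rfl⟩
  have h1 : ∀ y : Y, ∃ z : Y, y ≤ z ∧ ∀ w, y ≤ w → e z ≤ e w := by
    intro y
    obtain ⟨z, hz, hz'⟩ := wellFounded_lt.min_mem (e '' Ici y) (hne y)
    refine ⟨z, hz, fun w hw => ?_⟩
    rw [hz']
    exact not_lt.1 (wellFounded_lt.not_lt_min (e '' Ici y) ⟨w, hw, rfl⟩)
  choose z hz1 hz2 using h1
  refine ⟨fun y => e (z y) :: g (z y) ⟨y, hz1 y⟩, fun y y' hyy => ?_⟩
  rcases (hz2 y (z y') (hyy.le.trans (hz1 y'))).lt_or_eq with h2 | h2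
  · exact List.cons_lt_cons_iff.2 (Or.inl h2)
  · refine List.cons_lt_cons_iff.2 (Or.inr ⟨h2, ?_⟩)
    have h3 : z y = z y' := he h2
    have h4 : ∀ (w : Y) (hw : z y = w) (h5 : y ≤ w) (h6 : y' ≤ w),
        g (z y) ⟨y, hz1 y⟩ < g w ⟨y', h6⟩ := by
      rintro w rfl h5 h6
      exact hg (z y) hyy
    exact h4 (z y') h3 (h3 ▸ hz1 y) (hz1 y')

/-- Well orders of size at most `θ` embed in the lexicographic order of finite sequences. -/
theorem exists_strictMono_list {B X : Type u} [LinearOrder B] [WellFoundedLT B] {b₀ b₁ : B}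
    (hb : b₀ < b₁) [LinearOrder X] [WellFoundedLT X] (e : X → B) (he : Function.Injective e) :
    ∃ f : X → List B, StrictMono f := by
  classical
  refine exists_strictMono_list_step e he fun x => ?_
  induction x using WellFoundedLT.induction with
  | ind x ih =>
  obtain ⟨f, hf⟩ := exists_strictMono_list_step (fun y : Iio x => e y.1)
    (fun y y' h => Subtype.ext (he h)) fun z => by
      obtain ⟨g, hg⟩ := ih z.1 z.2
      exact ⟨fun y => g ⟨y.1.1, y.2⟩, fun y y' h => hg h⟩
  let F : Iic x → List B := fun y => if h : y.1 < x then b₀ :: f ⟨y.1, mem_Iio.2 h⟩ else [b₁]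
  have hF1 : ∀ (y : Iic x) (h : y.1 < x), F y = b₀ :: f ⟨y.1, mem_Iio.2 h⟩ := fun y h => dif_pos h
  have hF2 : ∀ (y : Iic x), ¬ y.1 < x → F y = [b₁] := fun y h => dif_neg h
  refine ⟨F, fun y y' hyy => ?_⟩
  have h0 : y.1 < y'.1 := hyy
  have h1 : y.1 < x := h0.trans_le y'.2
  rw [hF1 y h1]
  by_cases h2 : y'.1 < x
  · rw [hF1 y' h2]
    refine List.cons_lt_cons_iff.2 (Or.inr ⟨rfl, hf ?_⟩)
    exact h0
  · rw [hF2 y' h2]
    exact List.cons_lt_cons_iff.2 (Or.inl hb)

/-- The dense block. -/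
abbrev LBlk (θ : Cardinal.{u}) : Type u := List θ.ord.ToType

theorem mk_lBlk {θ : Cardinal.{u}} (hθ : ℵ₀ ≤ θ) : #(LBlk θ) = θ := by
  have h1 : #(θ.ord.ToType) = θ := mk_ord_toType θ
  have : Infinite θ.ord.ToType := by
    rw [Cardinal.infinite_iff, h1]
    exact hθ
  rw [mk_list_eq_mk, h1]

theorem exists_strictMono_lBlk {θ : Cardinal.{u}} (hθ : ℵ₀ ≤ θ) {X : Type u} [LinearOrder X]
    [WellFoundedLT X] (hX : #X ≤ θ) : ∃ f : X → LBlk θ, StrictMono f := by
  have h1 : #(θ.ord.ToType) = θ := mk_ord_toType θ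
  have h2 : #X ≤ #(θ.ord.ToType) := by rwa [h1]
  obtain ⟨e⟩ := h2
  have h3 : Infinite θ.ord.ToType := by
    rw [Cardinal.infinite_iff, h1]
    exact hθ
  obtain ⟨a, b, hab⟩ := exists_pair_ne θ.ord.ToType
  rcases lt_or_gt_of_ne hab with h | h
  · exact exists_strictMono_list h e e.injective
  · exact exists_strictMono_list h e e.injective

end Vale.Agent.P307.R2.H514
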