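import Vale.Agent.P307.R2.H514.UnivBlk
import Vale.Agent.P307.R2.H514.LOrd
import Vale.Agent.P307.R2.H1.Lim

/-!
The dense block is universal over the hull of the rest, uniformly.
-/

set_option linter.unusedSectionVars false

universe u

open FirstOrder Cardinal Set

namespace Vale.Agent.P307.R2.H514

open Vale.Agent.P307 Vale.Agent.P307.H304 Vale.Agent.P307.R2.H287 Vale.Agent.P307.R2.H1
  Vale.Agent.P307.R2.H806 Vale.Agent.P307.R2.H971 Vale.Agent.P307.R2.H541 Language.Structure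
  Language.Substructure

variable {L : Language.{u, u}} {K : AEC L} {ℓ θ ν : Cardinal.{u}}
  {κf α : Cardinal.{u} → Cardinal.{u}} {C : Type u} [L.Structure C]

section

variable (h₀ : BasePt K ℓ κf α θ) (hK : K.IsLS ℓ)
  (hunb : ∀ ν, ν < κf ν ∧ K.CategoricalIn (κf ν)) (hst : Stab K ℓ α (H287.thr κf))
  (hCm : K.mem C) (hs : Sat K θ C) (hCc : #C = Order.succ θ)

include h₀ hK hunb hst hCm hs hCc

/-- **Universality of the dense block**, over the hull of any set `Z` for which the block lies in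
one cut. -/
theorem pg_uni_list {t : Tpl K ν} (hν : ν ≤ θ) {J : Type u} [LinearOrder J] (E : EM t J)
    (e : E.N ↪[L] C) (he : K.Emb e) (s : LBlk θ → J) (hsm : StrictMono s) {Z : Set J}
    (hZ : #Z = θ) (hcut : ∀ z ∈ Z, (∀ x, z < s x) ∨ ∀ x, s x < z) :
    H1L.Uni (pg h₀ hK hunb hst hCm hs hCc) (e '' (hullL E Z : Set E.N))
      (e '' (hullL E (Z ∪ range s) : Set E.N)) := by
  classical
  have hℓ : ℓ ≤ θ := h₀.pt.lt.le
  have hθ : ℵ₀ ≤ θ := hK.1.trans hℓ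
  refine ⟨image_mono (hullL_mono E subset_union_left), fun D hD hZD => ?_⟩
  obtain ⟨D, hDK, hDc, rfl⟩ := hD
  obtain ⟨x₀⟩ : Nonempty (SuccTy θ) := by
    have h : #(SuccTy θ) ≠ 0 := by
      rw [mk_toType, card_ord]
      exact (Order.bot_lt_succ θ).ne'
    exact mk_ne_zero_iff.1 h
  let j₀ : J := s []
  have hZj : ∀ z ∈ Z, z ≠ j₀ := by
    intro z hz h
    rcases hcut z hz with h1 | h1
    · exact (h1 []).ne h
    · exact (h1 []).ne' h
  -- the order with a long block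
  let J₁ : Type u := {p : J ×ₗ SuccTy θ // (ofLex p).1 = j₀ ∨ ((ofLex p).1 ∈ Z ∧ (ofLex p).2 = x₀)}
  let s₁ : SuccTy θ → J₁ := fun x => ⟨toLex (j₀, x), Or.inl rfl⟩
  let zm : Z → J₁ := fun z => ⟨toLex (z.1, x₀), Or.inr ⟨z.2, rfl⟩⟩
  have hs₁ : StrictMono s₁ := fun x y h => Prod.Lex.lt_iff.2 (Or.inr ⟨rfl, h⟩)
  have hzm : StrictMono zm := fun x y h => Prod.Lex.lt_iff.2 (Or.inl h)
  have hkind : ∀ p : J₁, (∃ x, p = s₁ x) ∨ ∃ z, p = zm z := by
    rintro ⟨p, hp⟩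
    rcases hp with hp | ⟨hp, hp'⟩
    · refine Or.inl ⟨(ofLex p).2, Subtype.ext ?_⟩
      change p = toLex (j₀, (ofLex p).2)
      rw [← hp]
      rfl
    · refine Or.inr ⟨⟨(ofLex p).1, hp⟩, Subtype.ext ?_⟩
      change p = toLex ((ofLex p).1, x₀)
      rw [← hp']
      rfl
  have hzs : ∀ z x, zm z < s₁ x ↔ z.1 < j₀ := by
    intro z x
    constructor
    · intro h
      rcases Prod.Lex.lt_iff.1 h with h1 | h1
      · exact h1
      · exact absurd h1.1 (hZj z.1 z.2)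
    · exact fun h => Prod.Lex.lt_iff.2 (Or.inl h)
  have hsz : ∀ z x, s₁ x < zm z ↔ j₀ < z.1 := by
    intro z x
    constructor
    · intro h
      rcases Prod.Lex.lt_iff.1 h with h1 | h1
      · exact h1
      · exact absurd h1.1.symm (hZj z.1 z.2)
    · exact fun h => Prod.Lex.lt_iff.2 (Or.inl h)
  obtain ⟨E₁⟩ := exists_em t J₁
  obtain ⟨EZ⟩ := exists_em t Z
  obtain ⟨a₁, ha₁, ha₁'⟩ := EZ.exists_map E₁ zm hzm
  obtain ⟨a₂, ha₂, ha₂'⟩ := EZ.exists_map E (Subtype.val : Z → J) fun _ _ h => h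
  have hsat : Sat K θ E₁.N := by
    refine sat_em_block h₀.ab hK hℓ (h₀.largeExt hK hunb _) t hν s₁ hs₁ (fun j hj => ?_) E₁
    rcases hkind j with ⟨x, rfl⟩ | ⟨z, rfl⟩
    · exact absurd ⟨x, rfl⟩ hj
    · rcases lt_or_gt_of_ne (hZj z.1 z.2) with h | h
      · exact Or.inl fun x => (hzs z x).2 h
      · exact Or.inr fun x => (hsz z x).2 h
  -- the map into `D`
  have hmem : ∀ x, e (a₂ x) ∈ D := by
    intro x
    refine hZD ⟨a₂ x, ?_, rfl⟩
    obtain ⟨r, rfl⟩ := EM.exists_term EZ x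
    rw [ha₂']
    exact (mem_closure_image_iff E.c Z _).2 ⟨r, rfl⟩
  let f : EZ.N ↪[L] D := (e.comp a₂).codRestrict D hmem
  have hf : K.Emb f := AEC.Emb.of_comp (g := D.subtype) (AEC.emb_subtype.2 hDK) (by
    have h1 : D.subtype.comp f = e.comp a₂ := Language.Embedding.ext fun _ => rfl
    rw [h1]
    exact AEC.Emb.comp he ha₂)
  obtain ⟨g, hg, hg'⟩ := hsat EZ.N D a₁ f ha₁ hf (EZ.card_eq hν hZ) hDc
  -- the support
  obtain ⟨V, hV, hVg⟩ := exists_cover' hθ E₁.top (range g) (mk_range_le.trans hDc.le)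
  obtain ⟨b, hb, hbc⟩ := exists_bound hθ (s₁ ⁻¹' V)
    ((mk_preimage_of_injective _ _ hs₁.injective).trans hV)
  obtain ⟨fL, hfL⟩ := exists_strictMono_lBlk hθ (X := Iio b) hbc.le
  let V' : Set J₁ := V ∪ range zm
  have hπ : ∀ p : V', ∃ j : J, (∀ (x : SuccTy θ) (hx : x < b), p.1 = s₁ x → j = s (fL ⟨x, hx⟩)) ∧
      (∀ z : Z, p.1 = zm z → j = z.1) := by
    rintro ⟨p, hp⟩
    rcases hkind p with ⟨x, rfl⟩ | ⟨z, rfl⟩
    · have hx : x < b := by
        rcases hp with hp | ⟨z, hz⟩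
        · exact hb x hp
        · exfalso
          have h1 : z.1 = j₀ := congrArg (fun p : J₁ => (ofLex p.1).1) hz
          exact hZj z.1 z.2 h1
      refine ⟨s (fL ⟨x, hx⟩), fun y hy h => ?_, fun z h => ?_⟩
      · have h1 : x = y := hs₁.injective h
        subst h1
        rfl
      · exfalso
        have h1 : j₀ = z.1 := congrArg (fun p : J₁ => (ofLex p.1).1) h
        exact hZj z.1 z.2 h1.symm
    · refine ⟨z.1, fun y hy h => ?_, fun z' h => ?_⟩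
      · exfalso
        have h1 : z.1 = j₀ := congrArg (fun p : J₁ => (ofLex p.1).1) h
        exact hZj z.1 z.2 h1
      · rw [hzm.injective h]
  choose π hπ1 hπ2 using hπ
  have hkind' : ∀ p : V', (∃ x, ∃ _ : x < b, p.1 = s₁ x) ∨ ∃ z, p.1 = zm z := by
    rintro ⟨p, hp⟩
    rcases hkind p with ⟨x, rfl⟩ | ⟨z, rfl⟩
    · refine Or.inl ⟨x, ?_, rfl⟩
      rcases hp with hp | ⟨z, hz⟩
      · exact hb x hp
      · exfalso
        have h1 : z.1 = j₀ := congrArg (fun p : J₁ => (ofLex p.1).1) hz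
        exact hZj z.1 z.2 h1
    · exact Or.inr ⟨z, rfl⟩
  have hπm : StrictMono π := by
    intro p q hpq
    have h0 : p.1 < q.1 := hpq
    rcases hkind' p with ⟨x, hx, hp⟩ | ⟨z, hp⟩ <;> rcases hkind' q with ⟨y, hy, hq⟩ | ⟨w, hq⟩
    · rw [hπ1 p x hx hp, hπ1 q y hy hq]
      rw [hp, hq] at h0
      have h1 : x < y := hs₁.lt_iff_lt.1 h0
      exact hsm (hfL (a := ⟨x, hx⟩) (b := ⟨y, hy⟩) h1)
    · rw [hπ1 p x hx hp, hπ2 q w hq]
      rw [hp, hq] at h0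
      have h1 := (hsz w x).1 h0
      rcases hcut w.1 w.2 with h2 | h2
      · exact absurd h1 (not_lt.2 (h2 []).le)
      · exact h2 _
    · rw [hπ2 p z hp, hπ1 q y hy hq]
      rw [hp, hq] at h0
      have h1 := (hzs z y).1 h0
      rcases hcut z.1 z.2 with h2 | h2
      · exact h2 _
      · exact absurd h1 (not_lt.2 (h2 []).le)
    · rw [hπ2 p z hp, hπ2 q w hq]
      rw [hp, hq] at h0
      exact hzm.lt_iff_lt.1 h0
  obtain ⟨E'⟩ := exists_em t V'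
  obtain ⟨c₁, hc₁, hc₁'⟩ := E'.exists_map E₁ (Subtype.val : V' → J₁) fun _ _ h => h
  obtain ⟨c₂, hc₂, hc₂'⟩ := E'.exists_map E π hπm
  obtain ⟨c₃, hc₃, hc₃'⟩ := EZ.exists_map E' (fun z => (⟨zm z, Or.inr ⟨z, rfl⟩⟩ : V'))
    fun x y h => hzm h
  obtain ⟨k₀, hk₀, hk₀'⟩ := exists_lift g c₁ hg hc₁ (by
    intro d
    obtain ⟨r, hr⟩ := hVg (g d) ⟨d, rfl⟩
    rw [← hr]
    exact IsMap.exists_preimage (f := c₁) hc₁' (fun v hv => ⟨⟨v, Or.inl hv⟩, rfl⟩) r)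
  have hcoh : ∀ x, c₂ (k₀ (f x)) = a₂ x := by
    intro x
    have h1 : c₁ (c₃ x) = a₁ x := IsMap.comp_eq (f := c₃) (g := c₁) (h := a₁) hc₃' hc₁' ha₁'
      (fun _ => rfl) x
    have h2 : c₂ (c₃ x) = a₂ x := IsMap.comp_eq (f := c₃) (g := c₂) (h := a₂) hc₃' hc₂' ha₂'
      (fun z => hπ2 _ z rfl) x
    have h3 : k₀ (f x) = c₃ x := c₁.injective (by rw [hk₀', hg', h1])
    rw [h3, h2]
  obtain ⟨k, hk⟩ := hs.exists_iso hK hℓ hs hCc hCc D.subtype ((e.comp c₂).comp k₀)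
    (AEC.emb_subtype.2 hDK) (AEC.Emb.comp (AEC.Emb.comp he hc₂) hk₀) hDc
  have hk' : ∀ d : D, k (d : C) = e (c₂ (k₀ d)) := fun d => hk d
  refine ⟨k.toEquiv, mem_autG k, ?_, ?_⟩
  · rintro _ ⟨x, hx, rfl⟩
    obtain ⟨r, rfl⟩ := (mem_closure_image_iff E.c Z _).1 hx
    have h1 : a₂ (r.realize EZ.c) = r.realize fun q : Z => E.c q.1 := ha₂' r
    have h2 : k (e (a₂ (r.realize EZ.c))) = e (a₂ (r.realize EZ.c)) := by
      have h3 := hk' (f (r.realize EZ.c))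
      rw [hcoh] at h3
      exact h3
    rw [h1] at h2
    exact h2
  · rintro _ ⟨d, hd, rfl⟩
    change k d ∈ _
    rw [show k d = e (c₂ (k₀ ⟨d, hd⟩)) from hk' ⟨d, hd⟩]
    refine ⟨_, ?_, rfl⟩
    obtain ⟨r, hr⟩ := EM.exists_term E' (k₀ ⟨d, hd⟩)
    have hVZ : ∀ v : V', π v ∈ Z ∪ range s := by
      intro v
      rcases hkind' v with ⟨x, hx, h⟩ | ⟨z, h⟩
      · rw [hπ1 v x hx h]
        exact Or.inr ⟨_, rfl⟩
      · rw [hπ2 v z h]
        exact Or.inl z.2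
    change c₂ (k₀ ⟨d, hd⟩) ∈ hullL E (Z ∪ range s)
    rw [← hr, hc₂']
    refine (mem_closure_image_iff E.c (Z ∪ range s) _).2 ⟨r.relabel fun v : V' =>
      (⟨π v, hVZ v⟩ : (Z ∪ range s : Set J)), ?_⟩
    rw [Language.Term.realize_relabel]
    rfl

end

end Vale.Agent.P307.R2.H514
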