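import Vale.Agent.P307.R2.H1.Base

set_option linter.unusedSectionVars false

universe u v w

open FirstOrder Cardinal Set

namespace Vale.Agent.P307.R2.H514

open Vale.Agent.P307 Vale.Agent.P307.H304 Vale.Agent.P307.R2.H287 Vale.Agent.P307.R2.H971
  Vale.Agent.P307.R2.H1 Language.Structure Language.Substructure

variable {L : Language.{u, u}} {K : AEC L} {ℓ θ : Cardinal.{u}}
  {α κf : Cardinal.{u} → Cardinal.{u}} {t : Tpl K ℓ}

/-- In a saturated member of size `θ⁺`, small tuples with the same small pieces over strong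
submodels of size `θ` (in corresponding position) are conjugate. -/
theorem exists_aut_over (h₀ : BasePt K ℓ κf α θ) (hK : K.IsLS ℓ)
    (hunb : ∀ ν, ν < κf ν ∧ K.CategoricalIn (κf ν)) {σ : Cardinal.{u}} (hσ : ℓ ≤ σ) (hσθ : σ < θ) {C C' : Type u} [L.Structure C] [L.Structure C']
    (hC : #C = Order.succ θ) (hC' : #C' = Order.succ θ) (hs : Sat K θ C) (hs' : Sat K θ C')
    {A : Type u} [L.Structure A] (f : A ↪[L] C) (f' : A ↪[L] C') (hf : K.Emb f)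
    (hf' : K.Emb f') (hA : #A = θ) {P : Type u} (hP : #P ≤ σ) (r : P → C) (s : P → C')
    (h : ∀ (ι : Type u) (b : ι → A), #ι ≤ tB α σ →
      EqS L (tB α σ) (Sum.elim (fun i => f (b i)) r) (Sum.elim (fun i => f' (b i)) s)) :
    ∃ g : C ≃[L] C', (∀ a, g (f a) = f' a) ∧ ∀ z, g (r z) = s z := by
  have hθ := h₀.pt
  have hθ0 : ℵ₀ ≤ θ := hK.1.trans hθ.lt.le
  obtain ⟨t⟩ := exists_tpl' hK hunb
  obtain ⟨J, _, hJ, hJc⟩ := exists_nice θ (Vale.Agent.P307.R2.H287.thr κf θ)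
  obtain ⟨E⟩ := exists_em t J
  have hEθ : θ ≤ #E.N := (le_thr hunb θ).trans (hJc.trans E.le_card)
  have hT : ∀ s, ℓ ≤ s → s < θ → ∃ H, s ≤ H ∧ H < θ ∧ TameAt t θ s H := fun s hs hsθ =>
    ⟨tB α s, h₀.le_tb s hs, h₀.tb s hsθ, h₀.tame t s hs hsθ⟩
  have hsE : Sat K θ E.N := sat_nice hK hunb hθ hT hJ E hEθ
  have hCθ : θ ≤ #C := (Order.le_succ θ).trans hC.ge
  have hCθ' : θ ≤ #C' := (Order.le_succ θ).trans hC'.ge
  -- the embedding of `C'` in `E`
  obtain ⟨i₀, hi₀⟩ := Sat.exists_of_cat hK hθ.lt.le hθ.cat E.mem hEθ hf.mem_left hA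
  obtain ⟨j, hj, -⟩ := hsE.exists_emb hK hθ.lt.le hC' f' i₀ hf' hi₀ hA
  -- the submodels
  obtain ⟨B, hB1, hB2, hB3⟩ := exists_sub_card hK hθ.lt.le hf.mem_right hCθ
    (range f ∪ range r) ((mk_union_le _ _).trans
    (add_le_of_le hθ0 (mk_range_le.trans hA.le) (mk_range_le.trans (hP.trans hσθ.le))))
  have hB0 : K.Emb B.subtype := AEC.emb_subtype.2 hB1
  obtain ⟨k, hk, hk'⟩ := exists_lift f B.subtype hf hB0 fun a => ⟨⟨f a, hB2 (Or.inl ⟨a, rfl⟩)⟩, rfl⟩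
  let r' : P → B := fun z => ⟨r z, hB2 (Or.inr ⟨z, rfl⟩)⟩
  obtain ⟨B', hB1', hB2', hB3'⟩ := exists_sub_card hK hθ.lt.le hf'.mem_right hCθ'
    (range f' ∪ range s) ((mk_union_le _ _).trans
    (add_le_of_le hθ0 (mk_range_le.trans hA.le) (mk_range_le.trans (hP.trans hσθ.le))))
  have hB0' : K.Emb B'.subtype := AEC.emb_subtype.2 hB1'
  -- the standard pair
  obtain ⟨p⟩ := exists_stPair t hθ.lt.le
  obtain ⟨e⟩ := hθ.cat.2 p.S.N A p.S.mem hf.mem_left p.card hA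
  have he : K.Emb e.toEmbedding := AEC.Emb.of_equiv e p.S.mem
  have hσH : σ ≤ tB α σ := h₀.le_tb σ hσ
  have hHθ : tB α σ < θ := h₀.tb σ hσθ
  have hTs := h₀.tame t σ hσ hσθ
  have hH0 : ℵ₀ ≤ tB α σ := (hK.1.trans hσ).trans hσH
  have h3 := claim2 hK hunb hθ p hσ hσH hHθ hTs (f.comp e.toEmbedding)
    (AEC.Emb.comp hf he) ((j.comp f').comp e.toEmbedding)
    (AEC.Emb.comp (AEC.Emb.comp hj hf') he) hP r (fun z => j (s z)) (by
      intro ι b hι
      have hc : #(ι ⊕ P) ≤ tB α σ := by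
        rw [mk_sum, lift_id, lift_id]
        exact add_le_of_le hH0 hι (hP.trans hσH)
      have h4 := EqS.map_emb hK hunb (hσ.trans hσH) j hj ((hθ.thr _ hHθ).le.trans hCθ') hc
        (Sum.elim (fun i => f' (e (b i))) s)
      refine (h ι (fun i => e (b i)) hι).trans ?_
      refine Good.subset h4 ?_
      rintro _ ⟨i | z, rfl⟩
      · exact ⟨Sum.inl i, rfl⟩
      · exact ⟨Sum.inr z, rfl⟩)
  have hgf : GoodFam ℓ p (k.comp e.toEmbedding) ((j.comp f').comp e.toEmbedding) r'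
      (fun z => j (s z)) := by
    intro ρ hρ hPρ hℓρ ι b hι
    have hρ0 : ℵ₀ ≤ ρ := hK.1.trans hℓρ
    have hc : #(ι ⊕ P) ≤ ρ := by
      rw [mk_sum, lift_id, lift_id]
      exact add_le_of_le hρ0 hι hPρ
    have h4 := EqS.mono hρ0 (le_max_left ρ σ) (h3 (max ρ σ) (max_lt hρ hσθ) (le_max_right _ _) ι b
      (hι.trans (le_max_left _ _))) hc
    refine EqS.trans ?_ h4
    have h5 := EqS.map_emb hK hunb hℓρ B.subtype hB0 ((hθ.thr ρ hρ).le.trans hB3.ge) hc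
      (Sum.elim (fun z => (k.comp e.toEmbedding) (b z)) r')
    refine Good.subset h5 ?_
    rintro _ ⟨i | z, rfl⟩
    · exact ⟨Sum.inl i, Prod.ext rfl (hk' _)⟩
    · exact ⟨Sum.inr z, rfl⟩
  obtain ⟨q, hq, hq1, hq2⟩ := exists_over_nice' hK hunb hθ p hT hB3 hJ E hEθ
    (k.comp e.toEmbedding) (AEC.Emb.comp hk he) ((j.comp f').comp e.toEmbedding)
    (AEC.Emb.comp (AEC.Emb.comp hj hf') he) (hP.trans_lt hσθ) r' (fun z => j (s z)) hgf
  -- a common extension in `E`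
  have hjB : K.Emb (j.comp B'.subtype) := AEC.Emb.comp hj hB0'
  obtain ⟨D, hD1, hD2, hD3⟩ := exists_sub_card hK hθ.lt.le E.mem hEθ
    (range q ∪ range (j.comp B'.subtype)) ((mk_union_le _ _).trans
    (add_le_of_le hθ0 (mk_range_le.trans hB3.le) (mk_range_le.trans hB3'.le)))
  have hD0 : K.Emb D.subtype := AEC.emb_subtype.2 hD1
  obtain ⟨q', hqe, hq'⟩ := exists_lift q D.subtype hq hD0 fun a => ⟨⟨q a, hD2 (Or.inl ⟨a, rfl⟩)⟩, rfl⟩
  obtain ⟨m, hm, hm'⟩ := exists_lift (j.comp B'.subtype) D.subtype hjB hD0 fun a =>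
    ⟨⟨_, hD2 (Or.inr ⟨a, rfl⟩)⟩, rfl⟩
  obtain ⟨n, hn, hn'⟩ := hs' B' D B'.subtype m hB0' hm hB3' hD3
  -- values
  have hval : ∀ (b : B) (b' : B'), q b = j b' → n (q' b) = b' := by
    intro b b' h1
    have h2 : q' b = m b' := by
      apply D.subtype.injective
      rw [hq', hm']
      exact h1
    rw [h2, hn']
    rfl
  obtain ⟨g, hg⟩ := hs.exists_iso hK hθ.lt.le hs' hC hC' B.subtype (n.comp q') hB0
    (AEC.Emb.comp hn hqe) hB3
  refine ⟨g, fun a => ?_, fun z => ?_⟩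
  · have h1 := hg (k a)
    have h2 : B.subtype (k a) = f a := hk' a
    rw [h2] at h1
    rw [h1]
    refine hval (k a) ⟨f' a, hB2' (Or.inl ⟨a, rfl⟩)⟩ ?_
    have h3 := hq1 (e.symm a)
    change q (k (e (e.symm a))) = j (f' (e (e.symm a))) at h3
    rw [e.apply_symm_apply] at h3
    exact h3
  · have h1 := hg (r' z)
    refine h1.trans (hval (r' z) ⟨s z, hB2' (Or.inr ⟨z, rfl⟩)⟩ (hq2 z))

end Vale.Agent.P307.R2.H514
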