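import Vale.Agent.P307.R2.H514.UnivBlk
import Vale.Agent.P307.R2.H68.SatB

/-!
The gap lemma in the hulls of unions of blocks: arbitrary index order and arbitrary blocks.
-/

set_option linter.unusedSectionVars false

universe u v

open FirstOrder Cardinal Set Function

namespace Vale.Agent.P307.R2.H514

open Vale.Agent.P307 Vale.Agent.P307.H304 Vale.Agent.P307.R2.H287 Vale.Agent.P307.R2.H1
  Vale.Agent.P307.R2.H806 Vale.Agent.P307.R2.H971 Vale.Agent.P307.R2.H541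
  Language.Structure Language.Substructure
open Vale.Agent.P307.R2.H68 (part mk_part mk_part_le le_mk_part part_mono)

open scoped Classical

variable {L : Language.{u, u}} {K : AEC L} {ℓ θ ν : Cardinal.{u}}
  {κf α : Cardinal.{u} → Cardinal.{u}} {C : Type u} [L.Structure C]
  (h₀ : BasePt K ℓ κf α θ) (hK : K.IsLS ℓ)
  (hunb : ∀ ν, ν < κf ν ∧ K.CategoricalIn (κf ν)) (hst : Stab K ℓ α (H287.thr κf))
  (hCm : K.mem C) (hs : Sat K θ C) (hCc : #C = Order.succ θ)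

/-- **The gap lemma** for unions of blocks. -/
theorem pg_gap_part {t : Tpl K ν} (hν : ν ≤ θ) {Ω B : Type u} [LinearOrder Ω] [LinearOrder B]
    [Nonempty B] (hB : #B ≤ θ) (E : EM t (Ω ×ₗ B)) (e : E.N ↪[L] C) (he : K.Emb e)
    (s : SuccTy θ → Ω) (hsm : StrictMono s) {G : Set Ω} (hG : #G = θ)
    (hcut : ∀ g ∈ G, (∀ x, g < s x) ∨ ∀ x, s x < g) {D : Set C} (hD : #D ≤ θ) :
    ∃ k ∈ (pg h₀ hK hunb hst hCm hs hCc).G,
      (∀ a ∈ e '' (hullL E (part G) : Set E.N), k a = a) ∧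
        ∃ a : SuccTy θ, k '' D ⊆ e '' (hullL E (part (G ∪ s '' Iio a)) : Set E.N) := by
  have hθ := aleph0_le_pt h₀ hK
  let β : B := Classical.arbitrary B
  let s' : SuccTy θ → Ω ×ₗ B := fun x => toLex (s x, β)
  have hsm' : StrictMono s' := fun x y hxy => Prod.Lex.lt_iff.2 (Or.inl (hsm hxy))
  have hZc : #(part G : Set (Ω ×ₗ B)) = θ :=
    le_antisymm (mk_part_le hθ hG.le hB) (le_mk_part hG.ge)
  have hcut' : ∀ z ∈ (part G : Set (Ω ×ₗ B)), (∀ x, z < s' x) ∨ ∀ x, s' x < z := by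
    intro z hz
    rcases hcut _ hz with h | h
    · exact Or.inl fun x => Prod.Lex.lt_iff.2 (Or.inl (h x))
    · exact Or.inr fun x => Prod.Lex.lt_iff.2 (Or.inl (h x))
  obtain ⟨k, hk, h1, a, h2⟩ := pg_gap_block h₀ hK hunb hst hCm hs hCc hν E e he s' hsm' hZc hcut'
    hD
  refine ⟨k, hk, h1, a, h2.trans (image_mono (hullL_mono E ?_))⟩
  rintro z (hz | ⟨x, hx, rfl⟩)
  · exact Or.inl hz
  · exact Or.inr ⟨x, hx, rfl⟩

end Vale.Agent.P307.R2.H514
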