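import Vale.Agent.P307.R2.H514.AutOver
import Vale.Agent.P307.R2.H514.AutSmall
import Vale.Agent.P307.R2.H541.Sys
import Vale.Agent.P307.R2.H804.IndRel

/-!
The saturated member of size `θ⁺` as a homogeneous structure in the sense of `H541.PG`.
-/

set_option linter.unusedSectionVars false

universe u v w

open FirstOrder Cardinal Set

namespace Vale.Agent.P307.R2.H514

open Vale.Agent.P307 Vale.Agent.P307.H304 Vale.Agent.P307.R2.H287 Vale.Agent.P307.R2.H971
  Vale.Agent.P307.R2.H1 Vale.Agent.P307.R2.H804 Language.Structure Language.Substructure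

variable {L : Language.{u, u}} {K : AEC L} {ℓ θ : Cardinal.{u}}
  {α κf : Cardinal.{u} → Cardinal.{u}}

/-- A saturated member of size `θ⁺` at a base point `θ`. -/
structure Mst (K : AEC L) (ℓ : Cardinal.{u}) (κf α : Cardinal.{u} → Cardinal.{u})
    (θ : Cardinal.{u}) (C : Type u) [L.Structure C] : Prop where
  hK : K.IsLS ℓ
  hunb : ∀ ν, ν < κf ν ∧ K.CategoricalIn (κf ν)
  hst : Stab K ℓ α (thr κf)
  base : BasePt K ℓ κf α θ
  mem : K.mem C
  card : #C = Order.succ θ
  sat : Sat K θ C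

/-- The group of the automorphisms. -/
def autG (L : Language.{u, u}) (C : Type u) [L.Structure C] : Subgroup (Equiv.Perm C) where
  carrier := {g | ∃ e : C ≃[L] C, ∀ x, e x = g x}
  mul_mem' := by
    rintro g h ⟨e, he⟩ ⟨f, hf⟩
    exact ⟨e.comp f, fun x => by
      rw [Equiv.Perm.mul_apply, ← hf, ← he]
      rfl⟩
  one_mem' := ⟨Language.Equiv.refl L C, fun x => rfl⟩
  inv_mem' := by
    rintro g ⟨e, he⟩
    refine ⟨e.symm, fun x => ?_⟩
    rw [Equiv.Perm.eq_inv_iff_eq, ← he]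
    exact e.apply_symm_apply x

theorem mem_autG {C : Type u} [L.Structure C] {g : Equiv.Perm C} :
    g ∈ autG L C ↔ ∃ e : C ≃[L] C, ∀ x, e x = g x := Iff.rfl

theorem equiv_mem_autG {C : Type u} [L.Structure C] (e : C ≃[L] C) : e.toEquiv ∈ autG L C :=
  ⟨e, fun _ => rfl⟩

/-- The strong submodels of size `θ`. -/
def SC (K : AEC L) (θ : Cardinal.{u}) (C : Type u) [L.Structure C] : Set (Set C) :=
  {N | ∃ S : L.Substructure C, K.le S ∧ (S : Set C) = N ∧ #S = θ}

/-- The strong submodels of size less than `θ`. -/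
def TC (K : AEC L) (θ : Cardinal.{u}) (C : Type u) [L.Structure C] : Set (Set C) :=
  {N | ∃ S : L.Substructure C, K.le S ∧ (S : Set C) = N ∧ #S < θ}

theorem coe_map_equiv {M N : Type u} [L.Structure M] [L.Structure N] (e : M ≃[L] N)
    (S : L.Substructure M) : ((S.map e.toHom : L.Substructure N) : Set N) = e '' S := rfl

namespace Mst

variable {C : Type u} [L.Structure C]

theorem hθ0 (h : Mst K ℓ κf α θ C) : ℵ₀ ≤ θ := h.hK.1.trans h.base.pt.lt.le

theorem hℓθ (h : Mst K ℓ κf α θ C) : ℓ ≤ θ := h.base.pt.lt.le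

theorem θ_le (h : Mst K ℓ κf α θ C) : θ ≤ #C := (Order.le_succ θ).trans h.card.ge

theorem max_lt (h : Mst K ℓ κf α θ C) {ρ : Cardinal.{u}} (hρ : ρ < θ) : max ℓ ρ < θ :=
  _root_.max_lt h.base.pt.lt hρ

/-- Equality of small types gives automorphisms. -/
theorem conj (h : Mst K ℓ κf α θ C) {σ ν : Cardinal.{u}} (hσ : ℓ ≤ σ) (hσθ : σ < θ)
    (hν : α σ ≤ ν) {P : Type u} (hP : #P ≤ σ) {r s : P → C} (hrs : EqS L ν r s) :
    ∃ g ∈ autG L C, ∀ z, g (r z) = s z := by
  have h1 : σ ≤ α σ := (h.hst σ hσ).1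
  obtain ⟨g, hg⟩ := exists_aut_small h.base h.hK h.hunb h.hst hσ hσθ h.mem h.mem h.card h.card
    h.sat h.sat hP r s (hrs.mono ((h.hK.1.trans hσ).trans h1) hν (hP.trans h1))
  exact ⟨g.toEquiv, equiv_mem_autG g, hg⟩

/-- Automorphisms preserve the types. -/
theorem eqS_of_mem {g : Equiv.Perm C} (hg : g ∈ autG L C) {ν : Cardinal.{u}} (hν : ℵ₀ ≤ ν)
    {P : Type u} (hP : #P ≤ ν) (r : P → C) : EqS L ν r (fun z => g (r z)) := by
  obtain ⟨e, he⟩ := hg
  have h1 := EqS.equiv hν hP e r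
  have h2 : (fun i => e (r i)) = fun z => g (r z) := funext fun z => he _
  rwa [h2] at h1

/-- The reflection of small sets into strong submodels of size `θ`. -/
theorem refl (h : Mst K ℓ κf α θ C) {N : Set C} (hN : N ∈ SC K θ C) {ρ : Cardinal.{u}}
    (hρ : ℓ ≤ ρ) (hρθ : ρ < θ) : Refl L ρ N := by
  obtain ⟨S, h1, rfl, h2⟩ := hN
  exact refl_of_le h.hK h.hunb hρ h1 ((h.base.pt.thr _ hρθ).le.trans h2.ge)

theorem cof (h : Mst K ℓ κf α θ C) (X : Set C) (hX : #X ≤ θ) :
    ∃ Y : ℕ → Set C, Monotone Y ∧ (∀ n, #(Y n) < θ) ∧ ⋃ n, Y n = X := by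
  obtain ⟨A₀, hA₀⟩ := le_mk_iff_exists_set.1 h.θ_le
  obtain ⟨X', hXX', hX'⟩ : ∃ X' : Set C, X ⊆ X' ∧ #X' = θ :=
    ⟨X ∪ A₀, subset_union_left, le_antisymm ((mk_union_le _ _).trans (add_le_of_le h.hθ0 hX hA₀.le))
      (hA₀.ge.trans (mk_le_mk_of_subset subset_union_right))⟩
  obtain ⟨A, h1, h2, h3⟩ := exists_filtration hX' h.hθ0 h.base.pt.cof
  refine ⟨fun n => ((↑) : X' → C) '' A n ∩ X, fun n m hnm => ?_, fun n => ?_, ?_⟩
  · exact inter_subset_inter_left _ (image_mono (h1 hnm))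
  · exact (mk_le_mk_of_subset inter_subset_left).trans_lt (mk_image_le.trans_lt (h2 n))
  · ext x
    constructor
    · intro hx
      obtain ⟨n, hn⟩ := mem_iUnion.1 hx
      exact hn.2
    · intro hx
      obtain ⟨n, hn⟩ := h3 ⟨x, hXX' hx⟩
      exact mem_iUnion.2 ⟨n, ⟨_, hn, rfl⟩, hx⟩

theorem S_inv {g : Equiv.Perm C} {N : Set C} (hg : g ∈ autG L C) (hN : N ∈ SC K θ C) :
    g '' N ∈ SC K θ C := by
  obtain ⟨e, he⟩ := hg
  obtain ⟨S, h1, rfl, h2⟩ := hN
  have h3 : (e : C → C) = g := funext he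
  refine ⟨S.map e.toHom, K.le_iso e S h1, ?_, ?_⟩
  · rw [coe_map_equiv, h3]
  · change #(e '' (S : Set C)) = θ
    rw [mk_image_eq e.injective]
    exact h2

theorem T_inv {g : Equiv.Perm C} {N : Set C} (hg : g ∈ autG L C) (hN : N ∈ TC K θ C) :
    g '' N ∈ TC K θ C := by
  obtain ⟨e, he⟩ := hg
  obtain ⟨S, h1, rfl, h2⟩ := hN
  have h3 : (e : C → C) = g := funext he
  refine ⟨S.map e.toHom, K.le_iso e S h1, ?_, ?_⟩
  · rw [coe_map_equiv, h3]
  · change #(e '' (S : Set C)) < θ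
    rw [mk_image_eq e.injective]
    exact h2

theorem ls (h : Mst K ℓ κf α θ C) {N A : Set C} (hN : N ∈ SC K θ C) (hA : A ⊆ N) (hAθ : #A < θ) :
    ∃ R ∈ TC K θ C, A ⊆ R ∧ R ⊆ N := by
  obtain ⟨S, h1, rfl, h2⟩ := hN
  obtain ⟨R, h3, h4, h5⟩ := exists_sub_card h.hK (le_max_left ℓ #A) (K.mem_of_le _ h1).1
    ((h.max_lt hAθ).le.trans h2.ge) (((↑) : S → C) ⁻¹' A) ((mk_preimage_of_injective _ _
      Subtype.val_injective).trans (le_max_right _ _))
  refine ⟨((R.map S.subtype.toHom : L.Substructure C) : Set C), ⟨_, K.le_trans S R h3 h1, rfl,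
    ?_⟩, ?_, ?_⟩
  · change #(S.subtype '' (R : Set S)) < θ
    rw [mk_image_eq S.subtype.injective]
    exact h5.trans_lt (h.max_lt hAθ)
  · intro a ha
    exact ⟨⟨a, hA ha⟩, h4 ha, rfl⟩
  · rintro _ ⟨a, -, rfl⟩
    exact a.2

theorem satN (h : Mst K ℓ κf α θ C) {N A B : Set C} (hN : N ∈ SC K θ C) (hA : A ⊆ N)
    (hAθ : #A < θ) (hBθ : #B < θ) :
    ∃ g ∈ autG L C, (∀ a ∈ A, g a = a) ∧ ∀ b ∈ B, g b ∈ N := by
  let σ := max ℓ (#A + #B)
  have hσθ : σ < θ := h.max_lt (add_lt_of_lt h.hθ0 hAθ hBθ)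
  have hσ : ℓ ≤ σ := le_max_left _ _
  have h1 : σ ≤ α σ := (h.hst σ hσ).1
  have hAσ : #A ≤ σ := (self_le_add_right _ _).trans (le_max_right _ _)
  have hBσ : #B ≤ σ := (self_le_add_left _ _).trans (le_max_right _ _)
  obtain ⟨y', h2, h3⟩ := h.refl hN (hσ.trans h1) (h.base.al σ hσθ) A B (hAσ.trans h1)
    (hBσ.trans h1) (fun a => a) (fun a => hA a.2) (fun b => b)
  obtain ⟨g, hg, hg'⟩ := h.conj hσ hσθ le_rfl (P := A ⊕ B) (by
    rw [mk_sum, lift_id, lift_id]
    exact le_max_right _ _) h3.symm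
  exact ⟨g, hg, fun a ha => hg' (Sum.inl ⟨a, ha⟩), fun b hb => by
    have h4 : g b = y' ⟨b, hb⟩ := hg' (Sum.inr ⟨b, hb⟩)
    rw [h4]
    exact h2 _⟩

/-- Coherent automorphisms on an increasing sequence of strong submodels. -/
theorem lim (h : Mst K ℓ κf α θ C) (R : ℕ → Set C) (hR : Monotone R) (hRT : ∀ n, R n ∈ TC K θ C)
    (hRS : (⋃ n, R n) ∈ SC K θ C) (g : ℕ → Equiv.Perm C) (hg : ∀ n, g n ∈ autG L C)
    (hgg : ∀ n, ∀ a ∈ R n, g (n + 1) a = g n a) :
    ∃ k ∈ autG L C, ∀ n, ∀ a ∈ R n, k a = g n a := by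
  obtain ⟨S, hS, hSR, hSc⟩ := hRS
  choose T hT hTR hTc using hRT
  choose e he using hg
  have hgm : ∀ n m, n ≤ m → ∀ a ∈ R n, g m a = g n a := by
    intro n m hnm
    induction m, hnm using Nat.le_induction with
    | base => exact fun _ _ => rfl
    | succ m hnm ih => exact fun a ha => by rw [hgg m a (hR hnm ha), ih a ha]
  have hmem : ∀ a : S, ∃ n, (a : C) ∈ R n := fun a => by
    have h1 : (a : C) ∈ (S : Set C) := a.2
    rw [hSR] at h1
    exact mem_iUnion.1 h1
  choose n hn using hmem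
  have hval : ∀ (a : S) m, (a : C) ∈ R m → g (n a) a = g m a := by
    intro a m hm
    rw [← hgm (n a) (max (n a) m) (le_max_left _ _) a (hn a),
      ← hgm m (max (n a) m) (le_max_right _ _) a hm]
  have hfin : ∀ {k : ℕ} (x : Fin k → S), ∃ m, ∀ i, (x i : C) ∈ R m := by
    intro k x
    refine ⟨Finset.univ.sup fun i => n (x i), fun i => ?_⟩
    exact hR (Finset.le_sup (f := fun i => n (x i)) (Finset.mem_univ i)) (hn (x i))
  let f : S ↪[L] C :=
    { toFun := fun a => g (n a) a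
      inj' := by
        intro a b hab
        change g (n a) a = g (n b) b at hab
        rw [hval a (max (n a) (n b)) (hR (le_max_left _ _) (hn a)),
          hval b (max (n a) (n b)) (hR (le_max_right _ _) (hn b))] at hab
        exact Subtype.ext ((g _).injective hab)
      map_fun' := by
        intro k F x
        obtain ⟨m, hm⟩ := hfin x
        have h1 : ((funMap F x : S) : C) ∈ R (max m (n (funMap F x))) :=
          hR (le_max_right _ _) (hn _)
        have h2 : ∀ i, (x i : C) ∈ R (max m (n (funMap F x))) := fun i =>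
          hR (le_max_left _ _) (hm i)
        change g _ _ = funMap F fun i => g _ _
        rw [hval _ _ h1, ← he]
        have h3 : (fun i => g (n (x i)) (x i)) = fun i => e (max m (n (funMap F x))) (x i) := by
          funext i
          rw [hval _ _ (h2 i), he]
        rw [h3]
        exact (e _).map_fun F _
      map_rel' := by
        intro k F x
        obtain ⟨m, hm⟩ := hfin x
        change RelMap F (fun i => g _ _) ↔ _
        have h3 : (fun i => g (n (x i)) (x i)) = fun i => e m (x i) := by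
          funext i
          rw [hval _ _ (hm i), he]
        rw [h3]
        exact (e m).map_rel F _ }
  have hf : K.Emb f := by
    let F : ℕ → L.Substructure C := fun m => (T m).map (e m).toHom
    have hF : Monotone F := by
      refine monotone_nat_of_le_succ fun m => ?_
      rintro _ ⟨a, ha, rfl⟩
      have ha' : a ∈ R m := by
        rw [← hTR m]
        exact ha
      refine ⟨a, ?_, ?_⟩
      · rw [hTR (m + 1)]
        exact hR (Nat.le_succ m) ha'
      · change e (m + 1) a = e m a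
        rw [he, he, hgg m a ha']
    have hF' : Monotone fun m : ULift.{u} ℕ => F m.down := fun a b hab => hF hab
    have h1 : K.le (⨆ m : ULift.{u} ℕ, F m.down) :=
      AEC.le_iSup_directed _ hF' fun m => K.le_iso (e m.down) (T m.down) (hT m.down)
    have h2 : f.toHom.range = ⨆ m : ULift.{u} ℕ, F m.down := by
      ext x
      rw [Language.Substructure.mem_iSup_of_directed hF'.directed_le]
      constructor
      · rintro ⟨a, rfl⟩
        refine ⟨⟨n a⟩, a, ?_, ?_⟩
        · change (a : C) ∈ (T (n a) : Set C)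
          rw [hTR]
          exact hn a
        · exact he (n a) a
      · rintro ⟨m, a, ha, rfl⟩
        have ha' : a ∈ R m.down := by
          rw [← hTR m.down]
          exact ha
        have haS : a ∈ (S : Set C) := by
          rw [hSR]
          exact mem_iUnion.2 ⟨m.down, ha'⟩
        refine ⟨⟨a, haS⟩, ?_⟩
        change g (n ⟨a, haS⟩) a = e m.down a
        rw [hval ⟨a, haS⟩ m.down ha', he]
    unfold AEC.Emb
    rw [h2]
    exact h1
  obtain ⟨k, hk⟩ := h.sat.exists_iso h.hK h.hℓθ h.sat h.card h.card S.subtype f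
    (AEC.emb_subtype.2 hS) hf hSc
  refine ⟨k.toEquiv, equiv_mem_autG k, fun m a ha => ?_⟩
  have haS : a ∈ S := by
    have h1 : a ∈ (S : Set C) := by
      rw [hSR]
      exact mem_iUnion.2 ⟨m, ha⟩
    exact h1
  exact (hk ⟨a, haS⟩).trans (hval ⟨a, haS⟩ m ha)

/-- The saturated member as a homogeneous structure. -/
def pg (h : Mst K ℓ κf α θ C) : H541.PG C where
  G := autG L C
  χ := θ
  S := SC K θ C
  T := TC K θ C
  hχ := h.hθ0
  cof := h.cof
  S_card := by
    rintro N ⟨S, -, rfl, h2⟩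
    exact h2
  S_inv := S_inv
  T_card := by
    rintro N ⟨S, -, rfl, h2⟩
    exact h2
  ls := h.ls
  sat := h.satN
  lim := h.lim

end Mst

end Vale.Agent.P307.R2.H514
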