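import Vale.Agent.P307.R2.H514.Inst1
import Vale.Agent.P307.R2.H971.SatEM

/-!
The calculus of independence for the saturated member: symmetry, and free extensions.
-/

set_option linter.unusedSectionVars false

universe u v w

open FirstOrder Cardinal Set

namespace Vale.Agent.P307.R2.H514

open Vale.Agent.P307 Vale.Agent.P307.H304 Vale.Agent.P307.R2.H287 Vale.Agent.P307.R2.H971
  Vale.Agent.P307.R2.H1 Vale.Agent.P307.R2.H804 Language.Structure Language.Substructure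

variable {L : Language.{u, u}} {K : AEC L} {ℓ θ : Cardinal.{u}}
  {α κf : Cardinal.{u} → Cardinal.{u}}

theorem _root_.Vale.Agent.P307.R2.H1.IsUnif.map {t : Tpl K ℓ} {I J : Type u} [LinearOrder I]
    [LinearOrder J] {E : EM t I} {E' : EM t J} {σ : I → J} (hσ : StrictMono σ)
    {i : E.N → E'.N} (hi : IsMap E E' σ i) {X ι : Type u} [LinearOrder X] {a : X → ι → E.N}
    (ha : IsUnif E a) : IsUnif E' fun x z => i (a x z) := by
  obtain ⟨s, w, h1, h2⟩ := ha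
  refine ⟨s, fun x p => σ (w x p), fun x z => ?_, fun x y x' y' h3 h4 p q => ?_⟩
  · change _ = i (a x z)
    rw [← h1 x z]
    have h3 := hi ((s z).relabel (w x))
    rw [Language.Term.realize_relabel, Language.Term.realize_relabel] at h3
    exact h3.symm
  · rw [hσ.le_iff_le, hσ.le_iff_le]
    exact h2 _ _ _ _ h3 h4 p q

namespace Mst

variable {C : Type u} [L.Structure C]

/-- A strong submodel of size `θ` is an EM model. -/
theorem exists_em_str (h : Mst K ℓ κf α θ C) (t : Tpl K ℓ) {P : Set C} (hP : P ∈ SC K θ C) :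
    ∃ (E : EM t θ.ord.ToType) (f : E.N ↪[L] C), #E.N = θ ∧ K.Emb f ∧ range f = P := by
  obtain ⟨S, h1, rfl, h2⟩ := hP
  obtain ⟨E⟩ := exists_em t θ.ord.ToType
  have h3 : #E.N = θ := E.card_eq h.hℓθ (mk_ord_toType θ)
  obtain ⟨e⟩ := h.base.pt.cat.2 E.N S E.mem (K.mem_of_le _ h1).1 h3 h2
  refine ⟨E, S.subtype.comp e.toEmbedding, h3,
    AEC.Emb.comp (AEC.emb_subtype.2 h1) (AEC.Emb.of_equiv e E.mem), ?_⟩
  ext x
  constructor
  · rintro ⟨a, rfl⟩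
    exact (e a).2
  · intro hx
    exact ⟨e.symm ⟨x, hx⟩, congrArg Subtype.val (e.apply_symm_apply ⟨x, hx⟩)⟩

/-- EM presentations extend to larger submodels. -/
theorem exists_em_ext (h : Mst K ℓ κf α θ C) {t : Tpl K ℓ} {I : Type u} [LinearOrder I]
    (E : EM t I) (hE : #E.N = θ) (f : E.N ↪[L] C) (hf : K.Emb f) (X₀ : Set C) (hX₀ : #X₀ ≤ θ) :
    ∃ (J : Type u) (_ : LinearOrder J) (σ : I → J) (E' : EM t J) (i : E.N → E'.N)
      (f' : E'.N ↪[L] C), StrictMono σ ∧ IsMap E E' σ i ∧ K.Emb f' ∧ #E'.N = θ ∧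
        X₀ ⊆ range f' ∧ ∀ x, f' (i x) = f x := by
  have hθ0 := h.hθ0
  obtain ⟨S, hS1, hS2, hS3⟩ := exists_sub_card h.hK h.hℓθ h.mem h.θ_le (range f ∪ X₀)
    ((mk_union_le _ _).trans (add_le_of_le hθ0 (mk_range_le.trans hE.le) hX₀))
  have hS0 : K.Emb S.subtype := AEC.emb_subtype.2 hS1
  obtain ⟨k, hk, hk'⟩ := exists_lift f S.subtype hf hS0
    fun a => ⟨⟨f a, hS2 (Or.inl ⟨a, rfl⟩)⟩, rfl⟩
  let Z : Type u := (thr κf θ).ord.ToType
  let J₀ : Type u := Lex (I ⊕ Z)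
  let σ₀ : I → J₀ := fun i => toLex (Sum.inl i)
  have hσ₀ : StrictMono σ₀ := fun i j hij => Sum.Lex.inl_lt_inl_iff.2 hij
  obtain ⟨E₀⟩ := exists_em t J₀
  have hZ : thr κf θ ≤ #E₀.N := by
    have h1 : #Z ≤ #J₀ := mk_le_of_injective (f := fun z : Z => (toLex (Sum.inr z) : J₀))
      (fun z z' hzz => Sum.inr_injective (toLex.injective hzz))
    rw [mk_ord_toType] at h1
    exact h1.trans E₀.le_card
  have hθE₀ : θ ≤ #E₀.N := (le_thr h.hunb θ).trans hZ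
  have hs₀ : Sat K θ E₀.N := h.base.sat h.hK h.hunb hZ
  obtain ⟨i₀, hi₀, hi₀'⟩ := E.exists_map E₀ σ₀ hσ₀
  obtain ⟨g, hg, hg'⟩ := hs₀ E.N S i₀ k hi₀ hk hE hS3
  obtain ⟨V, hV, hVX⟩ := exists_cover' hθ0 E₀.top (range g) (mk_range_le.trans hS3.le)
  obtain ⟨B₀, hB₀⟩ := le_mk_iff_exists_set.1
    (((le_thr h.hunb θ).trans (mk_ord_toType (thr κf θ)).ge : θ ≤ #Z))
  let W : Set J₀ := (range σ₀ ∪ V) ∪ (fun z : Z => (toLex (Sum.inr z) : J₀)) '' B₀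
  have hI : #I ≤ θ := E.le_card.trans hE.le
  have hW : #W = θ := by
    refine le_antisymm ((mk_union_le _ _).trans (add_le_of_le hθ0 ((mk_union_le _ _).trans
      (add_le_of_le hθ0 (mk_range_le.trans hI) hV)) (mk_image_le.trans hB₀.le))) ?_
    have h1 : #((fun z : Z => (toLex (Sum.inr z) : J₀)) '' B₀ : Set J₀) = θ := by
      rw [mk_image_eq (fun z z' hzz => Sum.inr_injective (toLex.injective hzz)), hB₀]
    exact h1.ge.trans (mk_le_mk_of_subset subset_union_right)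
  obtain ⟨E'⟩ := exists_em t W
  have hE' : #E'.N = θ := E'.card_eq h.hℓθ hW
  let σ : I → W := fun i => ⟨σ₀ i, Or.inl (Or.inl ⟨i, rfl⟩)⟩
  have hσ : StrictMono σ := fun i j hij => hσ₀ hij
  obtain ⟨i, hi, hi'⟩ := E.exists_map E' σ hσ
  obtain ⟨j, hj, hj'⟩ := E'.exists_map E₀ (Subtype.val : W → J₀) fun _ _ h => h
  have hji : ∀ x, j (i x) = i₀ x := IsMap.comp_eq hi' hj' hi₀' fun _ => rfl
  obtain ⟨g₁, hg₁, hg₁'⟩ := exists_lift g j hg hj (by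
    intro a
    obtain ⟨s, hs⟩ := hVX (g a) ⟨a, rfl⟩
    obtain ⟨x, hx⟩ := IsMap.exists_preimage (V := V) hj' (fun v hv => ⟨⟨v, Or.inl (Or.inr hv)⟩,
      rfl⟩) s
    exact ⟨x, hx.trans hs⟩)
  obtain ⟨f', hf', hf''⟩ := h.sat S E'.N S.subtype g₁ hS0 hg₁ hS3 hE'
  refine ⟨W, inferInstance, σ, E', i, f', hσ, hi', hf', hE', fun x hx => ?_, fun x => ?_⟩
  · exact ⟨g₁ ⟨x, hS2 (Or.inr hx)⟩, hf'' _⟩
  · have h1 : i x = g₁ (k x) := j.injective (by rw [hji, hg₁', hg'])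
    rw [h1, hf'']
    exact hk' x

/-! ### The translation -/

/-- Independence gives coheirs. -/
theorem coh_of_ind (h : Mst K ℓ κf α θ C) {P A B : Set C} (hI : h.pg.Ind P A B) {ι : Type u}
    (r : ι → C) (hr : ∀ i, r i ∈ B) {ν β : Cardinal.{u}} (hν : ℵ₀ ≤ ν) (hι : #ι ≤ ν)
    (hιθ : #ι < θ) (hβ : β < θ) : Coh L ν β r P A := by
  intro ζ y hζ hy
  obtain ⟨g, hg, h1, h2⟩ := hI (range y) (by
    rintro _ ⟨z, rfl⟩
    exact hy z) (mk_range_le.trans_lt (hζ.trans_lt hβ)) (range r) (by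
    rintro _ ⟨i, rfl⟩
    exact hr i) (mk_range_le.trans_lt hιθ)
  refine ⟨fun i => g (r i), fun i => h2 _ ⟨i, rfl⟩, fun ξ k hξ => ?_⟩
  have h3 := eqS_of_mem hg hν (P := ξ ⊕ ι) (mk_sum_le' hν hξ hι) (Sum.elim (fun z => y (k z)) r)
  refine EqS.symm (h3.subset ?_)
  rintro _ ⟨z | i, rfl⟩
  · exact ⟨Sum.inl z, Prod.ext rfl (h1 _ ⟨k z, rfl⟩)⟩
  · exact ⟨Sum.inr i, rfl⟩

/-- The bounds at `θ`. -/
theorem opB_lt (h : Mst K ℓ κf α θ C) {ν : Cardinal.{u}} (hν : ν < θ) : opB κf ν < θ :=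
  (opB_le_limB κf ν).trans_lt (h.base.pt.lim ν hν)

theorem succ_lt (h : Mst K ℓ κf α θ C) {ν : Cardinal.{u}} (hν : ν < θ) : Order.succ ν < θ :=
  (Order.succ_le_of_lt (cantor ν)).trans_lt (h.base.pow ν hν)

/-- Coheirs are independent at one level. -/
theorem ind_of_coh (h : Mst K ℓ κf α θ C) {P B : Set C} (hP : P ∈ SC K θ C)
    (hB : #B ≤ θ) {ι : Type u} {r : ι → C} {ν : Cardinal.{u}} (hℓ : ℓ ≤ ν) (hνθ : ν < θ)
    (hι : #ι ≤ ν) (hc : Coh L ν (limB κf ν) r P B) : Ind L κf ν P B r := by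
  obtain ⟨t⟩ := exists_tpl' h.hK h.hunb
  obtain ⟨E, f, hE, hf, rfl⟩ := h.exists_em_str t hP
  obtain ⟨J, _, σ, E', i, f', hσ, hi, hf', hE', hX, hi'⟩ := h.exists_em_ext E hE f hf B hB
  have hne : Nonempty J := by
    by_contra hcon
    rw [not_nonempty_iff] at hcon
    have h2 : Nonempty θ.ord.ToType := by
      rw [← mk_ne_zero_iff, mk_ord_toType]
      exact (aleph0_pos.trans_le h.hθ0).ne'
    exact hcon.elim (σ h2.some)
  obtain ⟨a, -, ha2, ha3⟩ := exists_conv h.hK h.hunb hℓ hne E' (by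
    rw [hE']
    exact (h.base.pt.thr _ (h.opB_lt hνθ)).le) f' hf' hι r (D := range f) (B := B) (by
    rintro x (⟨y, rfl⟩ | hx)
    · exact ⟨i y, hi' y⟩
    · exact hX hx) hc
  exact ⟨_, ha2, ha3⟩

/-- Everything small is independent over the empty set. -/
theorem ind_empty (h : Mst K ℓ κf α θ C) {P : Set C} (hP : P ∈ SC K θ C)
    {ι : Type u} (r : ι → C) {ν : Cardinal.{u}} (hℓ : ℓ ≤ ν) (hνθ : ν < θ)
    (hι : #ι ≤ ν) : Ind L κf ν P ∅ r := by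
  refine h.ind_of_coh hP (by simp) hℓ hνθ hι (coh_of_refl (h.hK.1.trans hℓ)
    ((le_opB h.hunb ν).trans (opB_le_limB κf ν)) (h.refl hP
      (hℓ.trans ((le_opB h.hunb ν).trans (opB_le_limB κf ν))) (h.base.pt.lim ν hνθ)) hι r)

/-- The independence of the calculus gives the independence at one level. -/
theorem ind_of_pg (h : Mst K ℓ κf α θ C) {P A B : Set C} (hP : P ∈ SC K θ C) (hA : #A ≤ θ)
    (hI : h.pg.Ind P A B) {ι : Type u}
    (r : ι → C) (hr : ∀ i, r i ∈ B) {ν : Cardinal.{u}} (hℓ : ℓ ≤ ν) (hνθ : ν < θ)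
    (hι : #ι ≤ ν) : Ind L κf ν P A r :=
  h.ind_of_coh hP hA hℓ hνθ hι (h.coh_of_ind hI r hr (h.hK.1.trans hℓ) hι (hι.trans_lt hνθ)
    (h.base.pt.lim ν hνθ))

/-- A convergent sequence in `P` reflects its limit. -/
theorem exists_refl_of_ind (h : Mst K ℓ κf α θ C) {P B : Set C} {ι ζ : Type u}
    {r : ι → C} {σ ν : Cardinal.{u}} (hσ : ℓ ≤ σ) (hσθ : σ < θ) (hν : α σ ≤ ν) (hι : #ι ≤ σ)
    (hζ : #ζ ≤ σ) (y : ζ → C) (hy : ∀ z, y z ∈ P ∪ B) (hI : Ind L κf ν P B r) :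
    ∃ g ∈ autG L C, (∀ z, g (y z) = y z) ∧ ∀ i, g (r i) ∈ P := by
  have h1 : σ ≤ α σ := (h.hst σ hσ).1
  obtain ⟨a, ha, hc⟩ := hI
  obtain ⟨x, hx⟩ := hc ζ y (hζ.trans (h1.trans hν)) hy
  obtain ⟨g, hg, hg'⟩ := h.conj hσ hσθ hν (P := ζ ⊕ ι) (mk_sum_le' (h.hK.1.trans hσ) hζ hι)
    (hx x le_rfl).symm
  refine ⟨g, hg, fun z => hg' (Sum.inl z), fun i => ?_⟩
  have h2 : g (r i) = a x i := hg' (Sum.inr i)
  rw [h2]
  exact ha x i

/-- Symmetry. -/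
theorem symP (h : Mst K ℓ κf α θ C) {P A B : Set C} (hP : P ∈ SC K θ C)
    (hI : h.pg.Ind P A B) : h.pg.Ind P B A := by
  intro A' hA' hA'c B' hB' hB'c
  let σ := max ℓ (#A' + #B')
  have hσθ : σ < θ := h.max_lt (add_lt_of_lt h.hθ0 hA'c hB'c)
  have hσ : ℓ ≤ σ := le_max_left _ _
  have h1 : σ ≤ α σ := (h.hst σ hσ).1
  have hA'σ : #A' ≤ σ := (self_le_add_right _ _).trans (le_max_right _ _)
  have hB'σ : #B' ≤ σ := (self_le_add_left _ _).trans (le_max_right _ _)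
  have hνθ : α σ < θ := h.base.al σ hσθ
  have hℓν : ℓ ≤ α σ := hσ.trans h1
  have hIσ : #(A' ∩ B : Set C) ≤ σ := (mk_le_mk_of_subset inter_subset_left).trans hA'σ
  have h2 := h.ind_of_pg hP (A := B') (B := A' ∩ B) ((hB'σ.trans hσθ.le)) (hI.mono hB'
    inter_subset_right) (fun b : (A' ∩ B : Set C) => (b : C)) (fun b => b.2) hℓν hνθ
    (hIσ.trans h1)
  have h3 := h.ind_empty hP (fun b : B' => (b : C)) hℓν hνθ (hB'σ.trans h1)
  have h4 : range (fun b : B' => (b : C)) = B' := Subtype.range_coe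
  have h5 := Ind.symm h.hK h.hunb hℓν h.mem ((h.opB_lt hνθ).le.trans h.θ_le) (hB'σ.trans h1)
    (hIσ.trans h1) h3 (by rwa [h4])
  obtain ⟨g, hg, hg1, hg2⟩ := h.exists_refl_of_ind hσ hσθ le_rfl hB'σ hA'σ
    (fun a : A' => (a : C)) (by
      intro a
      rcases hA' a.2 with h6 | h6
      · exact Or.inl h6
      · exact Or.inr ⟨⟨a, a.2, h6⟩, rfl⟩) h5
  exact ⟨g, hg, fun a ha => hg1 ⟨a, ha⟩, fun b hb => hg2 ⟨b, hb⟩⟩

end Mst

end Vale.Agent.P307.R2.H514
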