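import Vale.Agent.P307.R2.H514.Inst2
import Vale.Agent.P307.R2.H804.Conj

/-!
The calculus of independence for the saturated member: small bases.
-/

set_option linter.unusedSectionVars false

universe u v w

open FirstOrder Cardinal Set

namespace Vale.Agent.P307.R2.H514

open Vale.Agent.P307 Vale.Agent.P307.H304 Vale.Agent.P307.R2.H287 Vale.Agent.P307.R2.H971
  Vale.Agent.P307.R2.H1 Vale.Agent.P307.R2.H804 Language.Structure Language.Substructure

variable {L : Language.{u, u}} {K : AEC L} {ℓ θ : Cardinal.{u}}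
  {α κf : Cardinal.{u} → Cardinal.{u}}

/-- Two limits of the same sequence. -/
theorem eqS_of_conv {N : Type u} [L.Structure N] {ν : Cardinal.{u}} {X ι : Type u}
    [LinearOrder X] {a : X → ι → N} {r r' : ι → N} {B : Set N} (h : Conv L ν a r B)
    (h' : Conv L ν a r' B) {ζ : Type u} (hζ : #ζ ≤ ν) (y : ζ → N) (hy : ∀ z, y z ∈ B) :
    EqS L ν (Sum.elim y r) (Sum.elim y r') := by
  obtain ⟨x₁, hx₁⟩ := h ζ y hζ hy
  obtain ⟨x₂, hx₂⟩ := h' ζ y hζ hy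
  exact (hx₁ _ (le_max_left x₁ x₂)).symm.trans (hx₂ _ (le_max_right x₁ x₂))

namespace Mst

variable {C : Type u} [L.Structure C]

theorem range_mem (_ : Mst K ℓ κf α θ C) {A : Type u} [L.Structure A] (f : A ↪[L] C)
    (hf : K.Emb f) (hA : #A = θ) : range f ∈ SC K θ C :=
  ⟨f.toHom.range, hf, rfl, (mk_congr f.equivRange.toEquiv).symm.trans hA⟩

/-- Free extensions over larger submodels: they are limits of the sequences of every level. -/
theorem free_uniq (h : Mst K ℓ κf α θ C) {σ : Cardinal.{u}} (hσ : ℓ ≤ σ) (hσθ : σ < θ)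
    {P Q : Set C} (hP : P ∈ SC K θ C) (hQ : Q ∈ SC K θ C) (hPQ : P ⊆ Q) {ι X : Type u}
    (hι : #ι ≤ σ) [LinearOrder X] (hX : #X < θ) {b : X → ι → C} (hb : ∀ x i, b x i ∈ P)
    {r r₂ : ι → C} (h1 : Conv L (tB α σ) b r P) (h2 : Conv L (tB α σ) b r₂ Q) {B : Set C}
    (hB : B ⊆ Q) (hI : ∀ ν, tB α σ ≤ ν → ν < θ → Ind L κf ν P B r) {ν : Cardinal.{u}}
    (hν : tB α σ ≤ ν) (hνθ : ν < θ) {ζ : Type u} (hζ : #ζ ≤ ν) (y : ζ → C)
    (hy : ∀ z, y z ∈ P ∪ B) : EqS L ν (Sum.elim y r) (Sum.elim y r₂) := by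
  have hσt : σ ≤ tB α σ := h.base.le_tb σ hσ
  have hℓt : ℓ ≤ tB α σ := hσ.trans hσt
  have ht0 : ℵ₀ ≤ tB α σ := h.hK.1.trans hℓt
  have hℓν : ℓ ≤ ν := hℓt.trans hν
  have hν0 : ℵ₀ ≤ ν := ht0.trans hν
  have hιt : #ι ≤ tB α σ := hι.trans hσt
  have hιν : #ι ≤ ν := hιt.trans hν
  have htθ : tB α σ < θ := h.base.tb σ hσθ
  have hno : ν ≤ opB κf ν := le_opB h.hunb ν
  have hoθ : opB κf ν < θ := h.opB_lt hνθ
  let ρ := max ν (max #X (Order.succ (opB κf ν)))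
  have hνρ : ν ≤ ρ := le_max_left _ _
  have hXρ : #X ≤ ρ := (le_max_left _ _).trans (le_max_right _ _)
  have hoρ : Order.succ (opB κf ν) ≤ ρ := (le_max_right _ _).trans (le_max_right _ _)
  have hρθ : ρ < θ := _root_.max_lt hνθ (_root_.max_lt hX (h.succ_lt hoθ))
  have hrefl : Refl L ρ P := h.refl hP (hℓν.trans hνρ) hρθ
  -- the sequence of the level `ν`
  obtain ⟨t⟩ := exists_tpl' h.hK h.hunb
  obtain ⟨E, f, hE, hf, hfP⟩ := h.exists_em_str t hP
  have hne : Nonempty θ.ord.ToType := by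
    rw [← mk_ne_zero_iff, mk_ord_toType]
    exact (aleph0_pos.trans_le h.hθ0).ne'
  obtain ⟨a, ha1, ha2, ha3⟩ := exists_conv h.hK h.hunb hℓν hne E (by
    rw [hE]
    exact (h.base.pt.thr _ hoθ).le) f hf hιν r (D := P) (B := ∅) (by
    rintro x (hx | hx)
    · rw [← hfP] at hx
      exact hx
    · exact absurd hx (notMem_empty x)) (coh_of_refl hν0
        (hno.trans (opB_le_limB κf ν)) (h.refl hP (hℓν.trans (hno.trans (opB_le_limB κf ν)))
          (h.base.pt.lim ν hνθ)) hιν r)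
  obtain ⟨J, _, τ, E', i, f', hτ, hi, hf', hE', hX', hi'⟩ := h.exists_em_ext E hE f hf Q (by
    obtain ⟨S, -, rfl, hS⟩ := hQ
    exact hS.le)
  have hneJ : Nonempty J := ⟨τ hne.some⟩
  obtain ⟨r₃, hr₃⟩ := exists_limit_sat h.hK h.hunb h.hℓθ h.sat hneJ E' hE' f' hf'
    (dir_opB h.hK h.hunb hℓν) (hιν.trans hνθ.le) (ha1.map hτ hi)
  have hbb : (fun x z => f' (i (a x z))) = fun x z => f (a x z) := by
    funext x z
    exact hi' _
  have h3 : ∀ ν', ν' ≤ opB κf ν → ℓ ≤ ν' → ν' < θ → #ι ≤ ν' →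
      Conv L ν' (fun x z => f (a x z)) r₃ Q := by
    intro ν' h3 h4 h5 h6
    have h7 := (hr₃ ν' h3 h4 (h.base.pt.thr ν' h5).le h6).mono hX'
    rwa [hbb] at h7
  have h4 : Conv L ν (fun x z => f (a x z)) r P := ha3.mono subset_union_left
  -- `r` and `r₃` over `P`
  have h5 : ∀ (ζ : Type u) (y : ζ → C), #ζ ≤ tB α σ → (∀ z, y z ∈ P) →
      EqS L (tB α σ) (Sum.elim y r) (Sum.elim y r₃) := by
    intro ζ y hζ hy
    exact (eqS_of_conv h4 ((h3 ν hno hℓν hνθ hιν).mono hPQ) (hζ.trans hν) y hy).mono ht0 hν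
      (mk_sum_le' ht0 hζ hιt)
  -- the limit of `b` over `Q`
  have h6 : Conv L (tB α σ) b r₃ (P ∪ Q) := Conv.key ht0 (hν.trans hνρ) hιt hXρ
    ((mk_succTy _).trans_le hoρ) hrefl hb ha2 (h1.congr h5)
    ((h3 _ (hν.trans hno) hℓt htθ hιt).mono (union_subset hPQ Subset.rfl))
  -- tameness
  obtain ⟨S, hS, rfl, hSc⟩ := hQ
  obtain ⟨g, hg1, hg2⟩ := H804.exists_aut_over h.base h.hK h.hunb h.mem h.sat h.card S hS hSc hσ
    hσθ hι r₃ r₂ (fun Q' a hQ' ha => eqS_of_conv (h6.mono subset_union_right) h2 hQ' a ha)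
  have h7 : Conv L ν (fun x z => f (a x z)) r₂ S := by
    refine (h3 ν hno hℓν hνθ hιν).congr fun ζ y hζ hy => ?_
    have h8 := EqS.equiv hν0 (mk_sum_le' hν0 hζ hιν) g (Sum.elim y r₃)
    refine h8.subset ?_
    rintro _ ⟨z | i, rfl⟩
    · exact ⟨Sum.inl z, Prod.ext rfl (hg1 _ (hy z))⟩
    · exact ⟨Sum.inr i, Prod.ext rfl (hg2 i)⟩
  have h8 : Conv L ν (fun x z => f (a x z)) r (P ∪ B) :=
    (hI ν hν hνθ).conv hν0 hνρ hoρ hιν hrefl ((mk_succTy _).trans_le hoρ) ha2 h4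
  exact eqS_of_conv h8 (h7.mono (union_subset hPQ hB)) hζ y hy

/-- Small bases. -/
theorem basedP (h : Mst K ℓ κf α θ C) {P E : Set C} (hP : P ∈ SC K θ C) (hE : #E < θ) :
    ∃ p ⊆ P, #p < θ ∧ ∀ g ∈ autG L C, (∀ x ∈ p, g x = x) → ∀ D : Set C, #D < θ →
      h.pg.Ind P E D → h.pg.Ind P E (g '' D) →
      ∃ k ∈ autG L C, (∀ x ∈ p, k x = x) ∧ (∀ x ∈ E, k x = x) ∧ ∀ x ∈ D, k x = g x := by
  let σ := max ℓ #E
  have hσ : ℓ ≤ σ := le_max_left _ _
  have hEσ : #E ≤ σ := le_max_right _ _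
  have hσθ : σ < θ := h.max_lt hE
  have hσt : σ ≤ tB α σ := h.base.le_tb σ hσ
  have hℓt : ℓ ≤ tB α σ := hσ.trans hσt
  have ht0 : ℵ₀ ≤ tB α σ := h.hK.1.trans hℓt
  have hEt : #E ≤ tB α σ := hEσ.trans hσt
  have htθ : tB α σ < θ := h.base.tb σ hσθ
  have hno : tB α σ ≤ opB κf (tB α σ) := le_opB h.hunb _
  have hoθ : opB κf (tB α σ) < θ := h.opB_lt htθ
  have hXθ : #(SuccTy (opB κf (tB α σ))) < θ := (mk_succTy _).trans_lt (h.succ_lt hoθ)
  obtain ⟨t⟩ := exists_tpl' h.hK h.hunb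
  obtain ⟨E₀, f, hE₀, hf, hfP⟩ := h.exists_em_str t hP
  have hne : Nonempty θ.ord.ToType := by
    rw [← mk_ne_zero_iff, mk_ord_toType]
    exact (aleph0_pos.trans_le h.hθ0).ne'
  obtain ⟨a, ha1, ha2, ha3⟩ := exists_conv h.hK h.hunb hℓt hne E₀ (by
    rw [hE₀]
    exact (h.base.pt.thr _ hoθ).le) f hf hEt (fun e : E => (e : C)) (D := P) (B := ∅) (by
    rintro x (hx | hx)
    · rw [← hfP] at hx
      exact hx
    · exact absurd hx (notMem_empty x)) (coh_of_refl ht0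
        (hno.trans (opB_le_limB κf _)) (h.refl hP (hℓt.trans (hno.trans (opB_le_limB κf _)))
          (h.base.pt.lim _ htθ)) hEt _)
  let b : SuccTy (opB κf (tB α σ)) → E → C := fun x i => f (a x i)
  have hb : Conv L (tB α σ) b (fun e : E => (e : C)) P := ha3.mono subset_union_left
  refine ⟨range fun q : SuccTy (opB κf (tB α σ)) × E => b q.1 q.2, ?_, ?_, ?_⟩
  · rintro _ ⟨q, rfl⟩
    exact ha2 _ _
  · refine mk_range_le.trans_lt ?_
    rw [mk_prod, lift_id, lift_id]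
    exact mul_lt_of_lt h.hθ0 hXθ hE
  intro g hg hgp D hD hI1 hI2
  obtain ⟨e, he⟩ := (autG L C).inv_mem hg
  have hee : ∀ x, e (g x) = x := fun x => by
    rw [he]
    exact g.symm_apply_apply x
  have hge : ∀ x, g (e x) = x := fun x => by
    rw [he]
    exact g.apply_symm_apply x
  have hep : ∀ x i, e (b x i) = b x i := by
    intro x i
    have h1 := hgp (b x i) ⟨(x, i), rfl⟩
    conv_lhs => rw [← h1]
    exact hee _
  have heG : e.toEquiv ∈ autG L C := equiv_mem_autG e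
  have hP' : e '' P ∈ SC K θ C := S_inv heG hP
  have hPθ : #P ≤ θ := by
    obtain ⟨S, -, rfl, hS⟩ := hP
    exact hS.le
  obtain ⟨J, _, τ, E', i, f', hτ, hi, hf', hE', hX', hi'⟩ := h.exists_em_ext E₀ hE₀ f hf
    (e '' P ∪ D) ((mk_union_le _ _).trans (add_le_of_le h.hθ0 (mk_image_le.trans hPθ) hD.le))
  have hneJ : Nonempty J := ⟨τ hne.some⟩
  obtain ⟨r₂, hr₂⟩ := exists_limit_sat h.hK h.hunb h.hℓθ h.sat hneJ E' hE' f' hf'
    (dir_opB h.hK h.hunb hℓt) (hEt.trans htθ.le) (ha1.map hτ hi)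
  have hbb : (fun x z => f' (i (a x z))) = b := by
    funext x z
    exact hi' _
  have h2 := hr₂ _ hno hℓt (h.base.pt.thr _ htθ).le hEt
  rw [hbb] at h2
  have hQ : range f' ∈ SC K θ C := h.range_mem f' hf' hE'
  have hPQ : P ⊆ range f' := by
    rw [← hfP]
    rintro _ ⟨x, rfl⟩
    exact ⟨i x, hi' x⟩
  have hP'Q : e '' P ⊆ range f' := subset_union_left.trans hX'
  have hDQ : D ⊆ range f' := subset_union_right.trans hX'
  have hb' : Conv L (tB α σ) b (fun z : E => e (z : C)) (e '' P) := by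
    have h3 := hb.equiv ht0 hEt e
    have h4 : (fun x i => e (b x i)) = b := funext fun x => funext fun i => hep x i
    rwa [h4] at h3
  have hI1' := h.symP hP hI1
  have hI2' : h.pg.Ind (e '' P) D (e '' E) := by
    have h3 := (h.symP hP hI2).smul heG
    have h4 : (e.toEquiv : Equiv.Perm C) '' (g '' D) = D := by
      rw [← image_comp]
      have h5 : (e.toEquiv : Equiv.Perm C) ∘ g = id := funext fun x => hee x
      rw [h5, image_id]
    rwa [h4] at h3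
  -- the levels
  let D' : Set C := (range fun q : SuccTy (opB κf (tB α σ)) × E => b q.1 q.2) ∪ D
  have hD' : #D' < θ := (mk_union_le _ _).trans_lt (add_lt_of_lt h.hθ0 (mk_range_le.trans_lt (by
    rw [mk_prod, lift_id, lift_id]
    exact mul_lt_of_lt h.hθ0 hXθ hE)) hD)
  let σ' := max σ #D'
  have hσσ' : σ ≤ σ' := le_max_left _ _
  have hσ'θ : σ' < θ := _root_.max_lt hσθ hD'
  have hℓσ' : ℓ ≤ σ' := hσ.trans hσσ'
  have hσ'α : σ' ≤ α σ' := (h.hst σ' hℓσ').1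
  let ν := max (tB α σ) (α σ')
  have hνθ : ν < θ := _root_.max_lt htθ (h.base.al σ' hσ'θ)
  have hD'ν : #D' ≤ ν := ((le_max_right _ _).trans hσ'α).trans (le_max_right _ _)
  have h3 := h.free_uniq hσ hσθ hP hQ hPQ hEσ hXθ (fun x i => ha2 x i) hb h2 hDQ
    (fun ν' h3 h4 => h.ind_of_pg hP hD.le hI1' _ (fun e => e.2) (hℓt.trans h3) h4
      (hEt.trans h3)) (le_max_left _ _ : tB α σ ≤ ν) hνθ hD'ν (fun z : D' => (z : C)) (by
      rintro ⟨z, hz | hz⟩
      · obtain ⟨q, rfl⟩ := hz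
        exact Or.inl (ha2 _ _)
      · exact Or.inr hz)
  have h4 := h.free_uniq hσ hσθ hP' hQ hP'Q hEσ hXθ
    (fun x i => ⟨b x i, ha2 x i, hep x i⟩) hb' h2 hDQ
    (fun ν' h3 h4 => h.ind_of_pg hP' hD.le hI2' _ (fun z : E => ⟨z, z.2, rfl⟩) (hℓt.trans h3) h4
      (hEt.trans h3)) (le_max_left _ _ : tB α σ ≤ ν) hνθ hD'ν (fun z : D' => (z : C)) (by
      rintro ⟨z, hz | hz⟩
      · obtain ⟨q, rfl⟩ := hz
        exact Or.inl ⟨_, ha2 _ _, hep _ _⟩
      · exact Or.inr hz)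
  obtain ⟨u, hu, hu'⟩ := h.conj hℓσ' hσ'θ (le_max_right _ _ : α σ' ≤ ν) (P := D' ⊕ E)
    (mk_sum_le' (h.hK.1.trans hℓσ') (le_max_right _ _) (hEσ.trans hσσ')) (h3.trans h4.symm)
  have hu1 : ∀ x ∈ D', u x = x := fun x hx => hu' (Sum.inl ⟨x, hx⟩)
  have hu2 : ∀ x ∈ E, u x = e x := fun x hx => hu' (Sum.inr ⟨x, hx⟩)
  refine ⟨g * u, (autG L C).mul_mem hg hu, fun x hx => ?_, fun x hx => ?_, fun x hx => ?_⟩
  · rw [Equiv.Perm.mul_apply, hu1 x (Or.inl hx), hgp x hx]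
  · rw [Equiv.Perm.mul_apply, hu2 x hx, hge]
  · rw [Equiv.Perm.mul_apply, hu1 x (Or.inr hx)]

/-- **The saturated member satisfies the calculus.** -/
theorem isCalc (h : Mst K ℓ κf α θ C) : h.pg.Calc where
  sym := fun hP hI => h.symP hP hI
  based := fun hP hE => h.basedP hP hE

end Mst

end Vale.Agent.P307.R2.H514
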