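import Vale.Agent.P307.R2.H806.SatTail

/-!
Saturation of the EM models over orders which contain a block of order type `θ⁺`.
-/

set_option linter.unusedSectionVars false

universe u

open FirstOrder Cardinal Set

namespace Vale.Agent.P307.R2.H514

open Vale.Agent.P307 Vale.Agent.P307.H304 Vale.Agent.P307.R2.H287 Vale.Agent.P307.R2.H1
  Vale.Agent.P307.R2.H806 Vale.Agent.P307.R2.H971 Language.Structure Language.Substructure

variable {L : Language.{u, u}} {K : AEC L} {ℓ θ T ν : Cardinal.{u}}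

/-- The EM model over an order with a convex block of order type `θ⁺` is saturated. -/
theorem sat_em_block (hAB : AB K θ T) (hK : K.IsLS ℓ) (hℓ : ℓ ≤ θ) (hext : LargeExt K θ T)
    (t : Tpl K ν) (hν : ν ≤ θ) {J : Type u} [LinearOrder J] (s : SuccTy θ → J)
    (hs : StrictMono s) (hcut : ∀ j, j ∉ range s → (∀ x, j < s x) ∨ ∀ x, s x < j)
    (E : EM t J) : Sat K θ E.N := by
  classical
  have hθ : ℵ₀ ≤ θ := hK.1.trans hℓ
  refine sat_em_gen hAB hK hℓ hext t hν (fun V hV => ?_) E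
  obtain ⟨i, hi, hic⟩ := exists_bound hθ (s ⁻¹' V)
    ((mk_preimage_of_injective _ _ hs.injective).trans hV)
  let Ω : Type u := SuccTy (max θ T)
  have h1 : Ordinal.type (α := SuccTy θ) (· < ·) ≤ Ordinal.type (α := Ω) (· < ·) := by
    rw [Ordinal.type_toType, Ordinal.type_toType]
    exact ord_le_ord.2 (Order.succ_le_succ (le_max_left _ _))
  obtain ⟨emb⟩ := Ordinal.type_le_iff.1 h1
  have hemb : StrictMono emb := fun a b hab => emb.map_rel_iff.2 hab
  let ω₀ : Ω := emb i
  let J₀ : Type u := {p : J ×ₗ Ω // (ofLex p).1 = s i ∨ ((ofLex p).1 ∉ range s ∧ (ofLex p).2 = ω₀)}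
  -- the map
  let F : J → J ×ₗ Ω := fun j => if h : ∃ x, s x = j then toLex (s i, emb h.choose) else
    toLex (j, ω₀)
  have hF1 : ∀ x, F (s x) = toLex (s i, emb x) := by
    intro x
    have h : ∃ y, s y = s x := ⟨x, rfl⟩
    have h2 : F (s x) = toLex (s i, emb h.choose) := dif_pos h
    rw [h2, hs.injective h.choose_spec]
  have hF2 : ∀ j, j ∉ range s → F j = toLex (j, ω₀) := fun j hj => dif_neg hj
  have hFJ : ∀ j, (ofLex (F j)).1 = s i ∨ ((ofLex (F j)).1 ∉ range s ∧ (ofLex (F j)).2 = ω₀) := by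
    intro j
    by_cases hj : j ∈ range s
    · obtain ⟨x, rfl⟩ := hj
      rw [hF1]
      exact Or.inl rfl
    · rw [hF2 j hj]
      exact Or.inr ⟨hj, rfl⟩
  have hp1 : ∀ p : J ×ₗ Ω, (ofLex p).1 = s i → p = toLex (s i, (ofLex p).2) := by
    intro p h
    rw [← h]
    rfl
  have hp2 : ∀ p : J ×ₗ Ω, (ofLex p).2 = ω₀ → p = toLex ((ofLex p).1, ω₀) := by
    intro p h
    rw [← h]
    rfl
  have hF : StrictMono F := by
    intro j j' hjj
    by_cases hj : j ∈ range s <;> by_cases hj' : j' ∈ range s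
    · obtain ⟨x, rfl⟩ := hj
      obtain ⟨x', rfl⟩ := hj'
      rw [hF1, hF1]
      exact Prod.Lex.lt_iff.2 (Or.inr ⟨rfl, hemb (hs.lt_iff_lt.1 hjj)⟩)
    · obtain ⟨x, rfl⟩ := hj
      rw [hF1, hF2 j' hj']
      rcases hcut j' hj' with h | h
      · exact absurd hjj (not_lt.2 (h x).le)
      · exact Prod.Lex.lt_iff.2 (Or.inl (h i))
    · obtain ⟨x, rfl⟩ := hj'
      rw [hF1, hF2 j hj]
      rcases hcut j hj with h | h
      · exact Prod.Lex.lt_iff.2 (Or.inl (h i))
      · exact absurd hjj (not_lt.2 (h x).le)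
    · rw [hF2 j hj, hF2 j' hj']
      exact Prod.Lex.lt_iff.2 (Or.inl hjj)
  refine ⟨V ∪ s '' Iio i, J₀, inferInstance, fun v => ⟨F v.1, hFJ v.1⟩, subset_union_left,
    ?_, fun x y hxy => hF hxy, ?_, ?_⟩
  · refine le_antisymm ((mk_union_le _ _).trans (add_le_of_le hθ hV (mk_image_le.trans hic.le))) ?_
    refine hic.symm.le.trans ?_
    rw [← mk_image_eq (f := s) (s := Iio i) hs.injective]
    exact mk_le_mk_of_subset subset_union_right
  · have h2 : T ≤ #Ω := by
      change T ≤ #((Order.succ (max θ T)).ord.ToType)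
      rw [mk_toType, card_ord]
      exact (le_max_right _ _).trans (Order.le_succ _)
    refine h2.trans (mk_le_of_injective (f := fun ω : Ω => (⟨toLex (s i, ω), Or.inl rfl⟩ : J₀)) ?_)
    intro a b hab
    have h3 : (toLex (s i, a) : J ×ₗ Ω) = toLex (s i, b) := congrArg Subtype.val hab
    exact (Prod.ext_iff.1 (toLex.injective h3)).2
  · intro Y hY hYe
    let Y₂ : Set Ω := {ω | ∃ h : (⟨toLex (s i, ω), Or.inl rfl⟩ : J₀) ∈ Y, True}
    have hY₂ : #Y₂ ≤ θ := by
      refine (mk_le_of_injective (f := fun ω : Y₂ =>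
        (⟨⟨toLex (s i, ω.1), Or.inl rfl⟩, ω.2.choose⟩ : Y)) ?_).trans hY
      intro a b hab
      have h3 : (toLex (s i, a.1) : J ×ₗ Ω) = toLex (s i, b.1) :=
        congrArg (fun y : Y => y.1.1) hab
      exact Subtype.ext (Prod.ext_iff.1 (toLex.injective h3)).2
    have hx : ∀ x < i, emb x ∈ Y₂ := by
      intro x hx
      refine ⟨?_, trivial⟩
      have h3 := hYe ⟨⟨s x, Or.inr ⟨x, hx, rfl⟩⟩, rfl⟩
      have h4 : (⟨F (s x), hFJ (s x)⟩ : J₀) = ⟨toLex (s i, emb x), Or.inl rfl⟩ :=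
        Subtype.ext (hF1 x)
      rw [← h4]
      exact h3
    obtain ⟨τ, hτ, hτ'⟩ := exists_collapse emb i Y₂ hY₂ hx
    have hg : ∀ y : Y, ∃ z : J, (∀ (ω : Ω) (h : ω ∈ Y₂), y.1.1 = toLex (s i, ω) →
        z = s (τ ⟨ω, h⟩)) ∧ (∀ j, j ∉ range s → y.1.1 = toLex (j, ω₀) → z = j) := by
      intro y
      rcases y.1.2 with h | ⟨h, h'⟩
      · have h2 : y.1.1 = toLex (s i, (ofLex y.1.1).2) := hp1 _ h
        have h3 : (ofLex y.1.1).2 ∈ Y₂ := by
          refine ⟨?_, trivial⟩
          have h4 : (⟨toLex (s i, (ofLex y.1.1).2), Or.inl rfl⟩ : J₀) = y.1 := Subtype.ext h2.symm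
          rw [h4]
          exact y.2
        refine ⟨s (τ ⟨_, h3⟩), fun ω hω h4 => ?_, fun j hj h4 => ?_⟩
        · have h5 : (ofLex y.1.1).2 = ω := by
            rw [h4]
            rfl
          subst h5
          rfl
        · exfalso
          refine hj ⟨i, ?_⟩
          rw [← h, h4]
          rfl
      · refine ⟨(ofLex y.1.1).1, fun ω hω h4 => ?_, fun j hj h4 => ?_⟩
        · exfalso
          refine h ⟨i, ?_⟩
          rw [h4]
          rfl
        · rw [h4]
          rfl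
    choose g hg1 hg2 using hg
    -- the two kinds of elements
    have hkind : ∀ y : Y, (∃ ω, ∃ _ : ω ∈ Y₂, y.1.1 = toLex (s i, ω)) ∨
        ∃ j, j ∉ range s ∧ y.1.1 = toLex (j, ω₀) := by
      intro y
      rcases y.1.2 with h | ⟨h, h'⟩
      · have h2 : y.1.1 = toLex (s i, (ofLex y.1.1).2) := hp1 _ h
        refine Or.inl ⟨(ofLex y.1.1).2, ⟨?_, trivial⟩, h2⟩
        have h4 : (⟨toLex (s i, (ofLex y.1.1).2), Or.inl rfl⟩ : J₀) = y.1 := Subtype.ext h2.symm
        rw [h4]
        exact y.2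
      · exact Or.inr ⟨(ofLex y.1.1).1, h, hp2 _ h'⟩
    refine ⟨g, ?_, ?_⟩
    · intro y y' hyy
      have h0 : y.1.1 < y'.1.1 := hyy
      rcases hkind y with ⟨ω, hω, h⟩ | ⟨j, hj, h⟩ <;> rcases hkind y' with ⟨ω', hω', h'⟩ | ⟨j', hj', h'⟩
      · rw [hg1 y ω hω h, hg1 y' ω' hω' h']
        rw [h, h'] at h0
        rcases Prod.Lex.lt_iff.1 h0 with h3 | h3
        · exact absurd h3 (lt_irrefl _)
        · exact hs (hτ (a := ⟨ω, hω⟩) (b := ⟨ω', hω'⟩) h3.2)
      · rw [hg1 y ω hω h, hg2 y' j' hj' h']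
        rw [h, h'] at h0
        rcases hcut j' hj' with h4 | h4
        · rcases Prod.Lex.lt_iff.1 h0 with h3 | h3
          · exact absurd h3 (not_lt.2 (h4 i).le)
          · exact absurd h3.1 (h4 i).ne'
        · exact h4 _
      · rw [hg2 y j hj h, hg1 y' ω' hω' h']
        rw [h, h'] at h0
        rcases hcut j hj with h4 | h4
        · exact h4 _
        · rcases Prod.Lex.lt_iff.1 h0 with h3 | h3
          · exact absurd h3 (not_lt.2 (h4 i).le)
          · exact absurd h3.1 (h4 i).ne'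
      · rw [hg2 y j hj h, hg2 y' j' hj' h']
        rw [h, h'] at h0
        rcases Prod.Lex.lt_iff.1 h0 with h3 | h3
        · exact h3
        · exact absurd h3.2 (lt_irrefl _)
    · intro v hv
      by_cases hvs : v.1 ∈ range s
      · obtain ⟨x, hx'⟩ := hvs
        have hxi : x < i := by
          rcases v.2 with h | ⟨x', h, h'⟩
          · refine hi x ?_
            change s x ∈ V
            rw [hx']
            exact h
          · have : x' = x := hs.injective (h'.trans hx'.symm)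
            rw [← this]
            exact h
        rw [hg1 ⟨_, hv⟩ (emb x) (hx x hxi) (by
          change F v.1 = _
          rw [← hx', hF1]), hτ' x hxi, hx']
      · rw [hg2 ⟨_, hv⟩ v.1 hvs (hF2 _ hvs)]

end Vale.Agent.P307.R2.H514
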