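import Vale.Agent.P307.R2.H287.Unif2

set_option linter.unusedSectionVars false

universe u v w

open FirstOrder Cardinal Set

namespace Vale.Agent.P307.R2.H514

open Vale.Agent.P307 Vale.Agent.P307.H304 Vale.Agent.P307.R2.H287 Language.Structure
  Language.Substructure

section basic

variable {L : Language.{u, u}} {M N P : Type u} [L.Structure M] [L.Structure N] [L.Structure P]

/-- Unions of increasing sequences of partial isomorphisms. -/
theorem isPI_iUnion {R : ℕ → Set (M × N)} (hm : Monotone R) (h : ∀ n, IsPI L (R n)) :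
    IsPI L (⋃ n, R n) := by
  have hfin : ∀ {k : ℕ} (x : Fin k → M × N) (q : M × N), (∀ i, x i ∈ ⋃ n, R n) →
      q ∈ ⋃ n, R n → ∃ n, (∀ i, x i ∈ R n) ∧ q ∈ R n := by
    intro k x q hx hq
    choose g hg using fun i => mem_iUnion.1 (hx i)
    obtain ⟨m, hm'⟩ := mem_iUnion.1 hq
    refine ⟨max m (Finset.univ.sup g), fun i => ?_, hm (le_max_left _ _) hm'⟩
    exact hm ((Finset.le_sup (Finset.mem_univ i)).trans (le_max_right _ _)) (hg i)
  constructor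
  · intro p hp q hq
    obtain ⟨n, h1, h2⟩ := hfin (k := 1) (fun _ => p) q (fun _ => hp) hq
    exact (h n).eq_iff p (h1 0) q h2
  · intro k f x hx q hq
    obtain ⟨n, h1, h2⟩ := hfin x q hx hq
    exact (h n).fun_iff f x h1 q h2
  · intro k r x hx
    obtain ⟨n, h1⟩ : ∃ n, ∀ i, x i ∈ R n := by
      choose g hg using fun i => mem_iUnion.1 (hx i)
      exact ⟨Finset.univ.sup g, fun i => hm (Finset.le_sup (Finset.mem_univ i)) (hg i)⟩
    exact (h n).rel_iff r x h1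

/-- A position of a back-and-forth system extends to an isomorphism when the cofinality of the
size is `ω`. -/
theorem exists_equiv_of_sys {θ : Cardinal.{u}} {F : Set (Set (M × N))} (hF : IsSys L θ F)
    (h0 : ℵ₀ ≤ θ) (hcof : θ.ord.cof = ℵ₀) (hM : #M = θ) (hN : #N = θ) {R : Set (M × N)}
    (hR : R ∈ F) : ∃ e : M ≃[L] N, ∀ p ∈ R, e p.1 = p.2 := by
  obtain ⟨A, hA1, hA2, hA3⟩ := exists_filtration hM h0 hcof
  obtain ⟨B, hB1, hB2, hB3⟩ := exists_filtration hN h0 hcof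
  have step : ∀ (n : ℕ) (R : F), ∃ R' : F, R.1 ⊆ R'.1 ∧ (∀ x ∈ A n, ∃ y, (x, y) ∈ R'.1) ∧
      (∀ y ∈ B n, ∃ x, (x, y) ∈ R'.1) := by
    intro n R
    obtain ⟨R₁, h1, h2, h3⟩ := hF.forth R.1 R.2 (A n) (hA2 n)
    obtain ⟨R₂, h4, h5, h6⟩ := hF.back R₁ h1 (B n) (hB2 n)
    refine ⟨⟨R₂, h4⟩, h2.trans h5, fun x hx => ?_, h6⟩
    obtain ⟨y, hy⟩ := h3 x hx
    exact ⟨y, h5 hy⟩
  choose nx hnx using step
  let seq : ℕ → F := fun n => Nat.rec ⟨R, hR⟩ (fun n R => nx n R) n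
  have hspec : ∀ n, (seq n).1 ⊆ (seq (n + 1)).1 ∧ (∀ x ∈ A n, ∃ y, (x, y) ∈ (seq (n + 1)).1) ∧
      (∀ y ∈ B n, ∃ x, (x, y) ∈ (seq (n + 1)).1) := fun n => hnx n (seq n)
  have hmono : Monotone fun n => (seq n).1 := monotone_nat_of_le_succ fun n => (hspec n).1
  have hPI : IsPI L (⋃ n, (seq n).1) := isPI_iUnion hmono fun n => hF.isPI _ (seq n).2
  obtain ⟨e, he⟩ := hPI.exists_equiv
    (fun x => by
      obtain ⟨n, hn⟩ := hA3 x
      obtain ⟨y, hy⟩ := (hspec n).2.1 x hn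
      exact ⟨y, mem_iUnion.2 ⟨n + 1, hy⟩⟩)
    (fun y => by
      obtain ⟨n, hn⟩ := hB3 y
      obtain ⟨x, hx⟩ := (hspec n).2.2 y hn
      exact ⟨x, mem_iUnion.2 ⟨n + 1, hx⟩⟩)
  refine ⟨e, fun p hp => ?_⟩
  have h1 : p ∈ ⋃ n, (seq n).1 := mem_iUnion.2 ⟨0, hp⟩
  exact ((hPI.eq_iff _ h1 _ (he p.1)).1 rfl).symm

variable {ν : Cardinal.{u}} {ι κ : Type u}

theorem EqS.comp {a : ι → M} {b : ι → N} (h : EqS L ν a b) (g : κ → ι) :
    EqS L ν (fun k => a (g k)) (fun k => b (g k)) := by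
  refine Good.subset h ?_
  rintro _ ⟨k, rfl⟩
  exact ⟨g k, rfl⟩

theorem eqS_of_equiv (hν : ℵ₀ ≤ ν) (hι : #ι ≤ ν) (e : M ≃[L] N) (a : ι → M) :
    EqS L ν a (fun i => e (a i)) := by
  refine (good_gr_equiv hν e (A := range a) (mk_range_le.trans hι)).subset ?_
  rintro _ ⟨i, rfl⟩
  exact mem_gr.2 ⟨⟨i, rfl⟩, rfl⟩

variable {K : AEC L} {ℓ : Cardinal.{u}} {κf : Cardinal.{u} → Cardinal.{u}}

theorem eqS_of_emb (hK : K.IsLS ℓ) (hunb : ∀ ν, ν < κf ν ∧ K.CategoricalIn (κf ν))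
    (hν : ℓ ≤ ν) (hι : #ι ≤ ν) (f : M ↪[L] N) (hf : K.Emb f) (hM : thr κf ν ≤ #M) (a : ι → M) :
    EqS L ν a (fun i => f (a i)) := by
  refine (good_gr_thr hK hunb hν f hf hM (range a) (mk_range_le.trans hι)).subset ?_
  rintro _ ⟨i, rfl⟩
  exact mem_gr.2 ⟨⟨i, rfl⟩, rfl⟩

/-- Equality of types is preserved and reflected by strong embeddings. -/
theorem eqS_emb_iff (hK : K.IsLS ℓ) (hunb : ∀ ν, ν < κf ν ∧ K.CategoricalIn (κf ν))
    (hν : ℓ ≤ ν) (hι : #ι ≤ ν) (f : M ↪[L] N) (hf : K.Emb f) (hM : thr κf ν ≤ #M) (a b : ι → M) :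
    EqS L ν (fun i => f (a i)) (fun i => f (b i)) ↔ EqS L ν a b :=
  ⟨fun h => (eqS_of_emb hK hunb hν hι f hf hM a).trans
      (h.trans (eqS_of_emb hK hunb hν hι f hf hM b).symm),
    fun h => (eqS_of_emb hK hunb hν hι f hf hM a).symm.trans
      (h.trans (eqS_of_emb hK hunb hν hι f hf hM b))⟩

end basic

section gap

/-- Iterated thresholds. -/
noncomputable def gSeq (l₀ : Cardinal.{u}) (g : Cardinal.{u} → Cardinal.{u}) :
    SuccTy l₀ → Cardinal.{u} :=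
  WellFounded.fix (r := (· < ·)) wellFounded_lt
    (fun i d => max l₀ (⨆ j : Set.Iio i, g (d j.1 j.2)))

theorem gSeq_eq (l₀ : Cardinal.{u}) (g : Cardinal.{u} → Cardinal.{u}) (i : SuccTy l₀) :
    gSeq l₀ g i = max l₀ (⨆ j : Set.Iio i, g (gSeq l₀ g j.1)) := by
  unfold gSeq
  rw [WellFounded.fix_eq]

theorem le_gSeq (l₀ : Cardinal.{u}) (g : Cardinal.{u} → Cardinal.{u}) (i : SuccTy l₀) :
    l₀ ≤ gSeq l₀ g i := by
  rw [gSeq_eq]
  exact le_max_left _ _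

theorem gSeq_lt (l₀ : Cardinal.{u}) (g : Cardinal.{u} → Cardinal.{u}) {i j : SuccTy l₀}
    (h : i < j) : g (gSeq l₀ g i) ≤ gSeq l₀ g j := by
  rw [gSeq_eq l₀ g j]
  refine le_trans ?_ (le_max_right _ _)
  exact le_ciSup (f := fun j : Set.Iio j => g (gSeq l₀ g j.1)) bddAbove_of_small ⟨i, h⟩

/-- The gap lemma. -/
theorem exists_gap (l₀ : Cardinal.{u}) (g : Cardinal.{u} → Cardinal.{u}) :
    ∃ H₁ : Cardinal.{u}, ∀ (Γ : Type u) (k : Γ → Cardinal.{u}), #Γ ≤ l₀ →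
      ∃ h, l₀ ≤ h ∧ g h ≤ H₁ ∧ ∀ γ, k γ ≤ h ∨ g h ≤ k γ := by
  refine ⟨⨆ i, g (gSeq l₀ g i), fun Γ k hΓ => ?_⟩
  by_contra hcon
  have h1 : ∀ i, ∃ γ, gSeq l₀ g i < k γ ∧ k γ < g (gSeq l₀ g i) := by
    intro i
    by_contra h2
    refine hcon ⟨gSeq l₀ g i, le_gSeq _ _ _, le_ciSup (f := fun i => g (gSeq l₀ g i))
      bddAbove_of_small i, fun γ => ?_⟩
    by_contra h3
    push Not at h3
    exact h2 ⟨γ, h3.1, h3.2⟩
  choose γ hγ using h1
  have hlt : ∀ i j, i < j → k (γ i) < k (γ j) := fun i j hij =>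
    ((hγ i).2.trans_le (gSeq_lt l₀ g hij)).trans (hγ j).1
  have hinj : Function.Injective γ := by
    intro i j hij
    rcases lt_trichotomy i j with h | h | h
    · exact absurd (congrArg k hij) (hlt i j h).ne
    · exact h
    · exact absurd (congrArg k hij) (hlt j i h).ne'
  have h2 := (mk_le_of_injective hinj).trans hΓ
  rw [mk_toType, card_ord] at h2
  exact absurd h2 (not_le.2 (Order.lt_succ _))

theorem aleph0_le_hanf (c : Cardinal.{u}) : ℵ₀ ≤ hanf c := by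
  obtain ⟨i, -⟩ := exists_gt_of_small (μ := max c ℵ₀) (le_max_right _ _) ∅ (by simp)
  exact (aleph0_le_dSeq _ c i).trans (le_ciSup (f := fun i => dSeq (max c ℵ₀) c i)
    bddAbove_of_small i)

end gap

end Vale.Agent.P307.R2.H514
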