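import Vale.Agent.P307.R2.H514.TBase

set_option linter.unusedSectionVars false

universe u v w

open FirstOrder Cardinal Set

namespace Vale.Agent.P307.R2.H514

open Vale.Agent.P307 Vale.Agent.P307.H304 Vale.Agent.P307.R2.H287 Language.Structure
  Language.Substructure

section cut

variable {I : Type u} [LinearOrder I]

/-- The cut of a point over a set. -/
def cut (s : Set I) (w : I) : Set s := {a | a.1 < w}

theorem mem_cut {s : Set I} {w : I} {a : s} : a ∈ cut s w ↔ a.1 < w := Iff.rfl

theorem cut_mono (s : Set I) {w w' : I} (h : w ≤ w') : cut s w ⊆ cut s w' :=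
  fun _ ha => lt_of_lt_of_le ha h

theorem lt_iff_cut {s : Set I} {w w' : I} (h : cut s w ≠ cut s w') :
    w < w' ↔ cut s w ⊆ cut s w' := by
  refine ⟨fun h1 => cut_mono s h1.le, fun h1 => ?_⟩
  by_contra h2
  exact h (h1.antisymm (cut_mono s (not_lt.1 h2)))

theorem le_iff_cut {s : Set I} {w w' : I} (h : cut s w ≠ cut s w') :
    w ≤ w' ↔ cut s w ⊆ cut s w' := by
  rw [← lt_iff_cut h]
  refine ⟨fun h1 => lt_of_le_of_ne h1 fun h2 => h (by rw [h2]), le_of_lt⟩

/-- The relative position of two points. -/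
def SameOrd {I : Type u} [LinearOrder I] (w w' p p' : I) : Prop :=
  (w ≤ w' ↔ p ≤ p') ∧ (w' ≤ w ↔ p' ≤ p)

theorem SameOrd.swap {w w' p p' : I} (h : SameOrd w w' p p') : SameOrd w' w p' p := ⟨h.2, h.1⟩

theorem sameOrd_of_cut {s : Set I} {w w' p p' : I} (h : cut s w ≠ cut s w')
    (h1 : cut s p = cut s w) (h2 : cut s p' = cut s w') : SameOrd w w' p p' := by
  have h3 : cut s p ≠ cut s p' := by rw [h1, h2]; exact h
  refine ⟨?_, ?_⟩
  · rw [le_iff_cut h, le_iff_cut h3, h1, h2]
  · rw [le_iff_cut h.symm, le_iff_cut h3.symm, h1, h2]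

theorem sameOrd_of_mem {s : Set I} {w w' p' : I} (hw : w ∈ s) (hw' : w' ∉ s) (hp' : p' ∉ s)
    (h2 : cut s p' = cut s w') : SameOrd w w' w p' := by
  have h3 : ∀ q, q ∉ s → (w ≤ q ↔ (⟨w, hw⟩ : s) ∈ cut s q) := by
    intro q hq
    rw [mem_cut]
    refine ⟨fun h => lt_of_le_of_ne h fun h' => hq (h' ▸ hw), le_of_lt⟩
  have h4 : ∀ q, q ∉ s → (q ≤ w ↔ (⟨w, hw⟩ : s) ∉ cut s q) := by
    intro q hq
    rw [mem_cut, not_lt]
  exact ⟨by rw [h3 _ hw', h3 _ hp', h2], by rw [h4 _ hw', h4 _ hp', h2]⟩

theorem sameOrd_of_lt {w w' p p' : I} (h : w < w') (h' : p < p') : SameOrd w w' p p' :=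
  ⟨⟨fun _ => h'.le, fun _ => h.le⟩,
    ⟨fun h1 => absurd h (not_lt.2 h1), fun h1 => absurd h' (not_lt.2 h1)⟩⟩

end cut

section core

variable {L : Language.{u, u}} {Λ T S : Type u}

/-- The terms with the cut functions. -/
def tG (C : Set S) {Q : Type w} (r : (L2 L Λ T S).Term Q) : (L2 L Λ T S).Term Q :=
  Language.Term.func (sG C) ![r]

/-- The terms with the unary functions. -/
def tF (i : ℕ) {Q : Type w} (r : (L2 L Λ T S).Term Q) : (L2 L Λ T S).Term Q :=
  Language.Term.func (sF i) ![r]

/-- The constants. -/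
def tT (τ : T) {Q : Type w} : (L2 L Λ T S).Term Q :=
  Language.Term.func (sT τ) fun k => k.elim0

variable {Z : Type u} [(L2 L Λ T S).Structure Z]

theorem realize_tG (C : Set S) {Q : Type w} (r : (L2 L Λ T S).Term Q) (b : Q → Z) :
    (tG C r).realize b = funMap (L := L2 L Λ T S) (sG C) ![r.realize b] := by
  change funMap (L := L2 L Λ T S) (sG C) _ = _
  congr 1
  funext k
  fin_cases k
  rfl

theorem realize_tF (i : ℕ) {Q : Type w} (r : (L2 L Λ T S).Term Q) (b : Q → Z) :
    (tF i r).realize b = funMap (L := L2 L Λ T S) (sF i) ![r.realize b] := by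
  change funMap (L := L2 L Λ T S) (sF i) _ = _
  congr 1
  funext k
  fin_cases k
  rfl

theorem realize_tT (τ : T) {Q : Type w} (b : Q → Z) :
    (tT τ : (L2 L Λ T S).Term Q).realize b =
      funMap (L := L2 L Λ T S) (sT τ) fun k => k.elim0 := by
  change funMap (L := L2 L Λ T S) (sT τ) _ = _
  congr 1
  funext k
  exact k.elim0

end core

section auto

variable {L : Language.{u, u}} {Λ T S Z P : Type u} [(L2 L Λ T S).Structure Z] [L.Structure Z]
  [(Language.LHom.sumInl : L →ᴸ L2 L Λ T S).IsExpansionOn Z]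
  [(L2 L Λ T S).Structure P] [L.Structure P]
  [(Language.LHom.sumInl : L →ᴸ L2 L Λ T S).IsExpansionOn P]

/-- The automorphism of the stretched model. -/
theorem exists_auto (e : Z ≃[L] Z)
    (he0 : ∀ z : Z, funMap (L := L2 L Λ T S) (sF 0) ![z] = e z)
    (he1 : ∀ z : Z, funMap (L := L2 L Λ T S) (sF 1) ![z] = e.symm z)
    (hloc : ∀ (n : ℕ) (y : Fin n → P), ∃ z : Fin n → Z, AtEq (L2 L Λ T S) y z) :
    ∃ g : P ≃[L] P, ∀ y, g y = funMap (L := L2 L Λ T S) (sF 0) ![y] := by
  let φ : L →ᴸ L2 L Λ T S := Language.LHom.sumInl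
  have h01 : ∀ y : P, funMap (L := L2 L Λ T S) (sF 1)
      ![funMap (L := L2 L Λ T S) (sF 0) ![y] ] = y := by
    intro y
    obtain ⟨z, hz⟩ := hloc 1 ![y]
    have h := (hz.1 (tF 1 (tF 0 (Language.Term.var 0))) (Language.Term.var 0)).2 (by
      rw [realize_tF, realize_tF, he0, he1]
      exact e.symm_apply_apply _)
    rw [realize_tF, realize_tF] at h
    exact h
  have h10 : ∀ y : P, funMap (L := L2 L Λ T S) (sF 0)
      ![funMap (L := L2 L Λ T S) (sF 1) ![y] ] = y := by
    intro y
    obtain ⟨z, hz⟩ := hloc 1 ![y]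
    have h := (hz.1 (tF 0 (tF 1 (Language.Term.var 0))) (Language.Term.var 0)).2 (by
      rw [realize_tF, realize_tF, he0, he1]
      exact e.apply_symm_apply _)
    rw [realize_tF, realize_tF] at h
    exact h
  refine ⟨{ toFun := fun y => funMap (L := L2 L Λ T S) (sF 0) ![y]
            invFun := fun y => funMap (L := L2 L Λ T S) (sF 1) ![y]
            left_inv := h01
            right_inv := h10
            map_fun' := ?_
            map_rel' := ?_ }, fun y => rfl⟩
  · intro n f y
    obtain ⟨z, hz⟩ := hloc n y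
    have h := (hz.1 (tF 0 (Language.Term.func (φ.onFunction f) fun k => Language.Term.var k))
      (Language.Term.func (φ.onFunction f) fun k => tF 0 (Language.Term.var k))).2 (by
      rw [realize_tF, he0]
      change e (funMap (φ.onFunction f) z) = funMap (φ.onFunction f) _
      rw [φ.map_onFunction, φ.map_onFunction]
      refine (e.map_fun f z).trans ?_
      congr 1
      funext k
      rw [realize_tF, he0]
      rfl)
    rw [realize_tF] at h
    change funMap (sF 0) ![funMap (φ.onFunction f) y] = funMap (φ.onFunction f) _ at h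
    rw [φ.map_onFunction, φ.map_onFunction] at h
    refine h.trans ?_
    congr 1
    funext k
    rw [realize_tF]
    rfl
  · intro n r y
    obtain ⟨z, hz⟩ := hloc n y
    have h1 := hz.2 n (φ.onRelation r) fun k => tF 0 (Language.Term.var k)
    have h2 := hz.2 n (φ.onRelation r) fun k => Language.Term.var k
    rw [φ.map_onRelation, φ.map_onRelation] at h1 h2
    have h3 : RelMap r (fun k => (tF 0 (Language.Term.var k) :
        (L2 L Λ T S).Term (Fin n)).realize z) ↔ RelMap r z := by
      refine Iff.trans (iff_of_eq ?_) (e.map_rel r z)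
      congr 1
      funext k
      rw [realize_tF, he0]
      rfl
    refine Iff.trans (iff_of_eq ?_) (h1.trans (h3.trans h2.symm))
    congr 1
    funext k
    rw [realize_tF]
    rfl

end auto

end Vale.Agent.P307.R2.H514
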