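import Vale.Agent.P307.R2.H514.TCore

set_option linter.unusedSectionVars false

universe u v w

open FirstOrder Cardinal Set

namespace Vale.Agent.P307.R2.H514

open Vale.Agent.P307 Vale.Agent.P307.H304 Vale.Agent.P307.R2.H287 Language.Structure
  Language.Substructure

section index

variable {I : Type u} [LinearOrder I] {Γ : Type u} [LinearOrder Γ]

open Classical in
/-- The index of a point in the stretched order. -/
noncomputable def zIdx (s : Set I) (ι : Set s → Γ) (ε : Set s → Prop) (w : I) :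
    Γ ×ₗ (I ⊕ₗ Iᵒᵈ) :=
  toLex (ι (cut s w), if ε (cut s w) then toLex (Sum.inl w) else toLex (Sum.inr (OrderDual.toDual w)))

theorem zIdx_lt_pos {s : Set I} {ι : Set s → Γ} {ε : Set s → Prop} {w w' : I}
    (h : cut s w = cut s w') (hε : ε (cut s w)) :
    zIdx s ι ε w < zIdx s ι ε w' ↔ w < w' := by
  unfold zIdx
  rw [Prod.Lex.lt_iff]
  simp only [ofLex_toLex]
  rw [← h]
  simp [hε]

theorem zIdx_lt_neg {s : Set I} {ι : Set s → Γ} {ε : Set s → Prop} {w w' : I}
    (h : cut s w = cut s w') (hε : ¬ ε (cut s w)) :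
    zIdx s ι ε w < zIdx s ι ε w' ↔ w' < w := by
  unfold zIdx
  rw [Prod.Lex.lt_iff]
  simp only [ofLex_toLex]
  rw [← h]
  simp [hε]

end index

/-- The core lemma: stretching along a long sequence. -/
theorem core {L : Language.{u, u}} {K : AEC L} {Λ Z M I : Type u} [L.Structure Z]
    [(exLang L Λ).Structure Z] [(exHom L Λ).IsExpansionOn Z] [Nonempty Z]
    (hclZ : Gr.Cl1 K (exHom L Λ) Z) [(exLang L Λ).Structure M] {a : ∀ n : ℕ, Fin n → M}
    [LinearOrder I] {c : I → Z} (hc : IsEM (exLang L Λ) a c) (hinj : Function.Injective c)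
    {l : Cardinal.{u}} (hl : ℵ₀ ≤ l) (hL : L.card ≤ l) (hΛ : #Λ ≤ l)
    (s T₀ V : Set I) (hsT : s ⊆ T₀) (hs : 2 ^ #s ≤ l) (hT₀ : #T₀ ≤ l)
    {J : Type u} [LinearOrder J] [WellFoundedLT J] (hJ : hanf (2 ^ l) ≤ #J)
    (x : J → Z) (hx : Function.Injective x) (j : Set s → J → I)
    (hj1 : ∀ w ∈ V, w ∉ T₀ → Function.Injective (j (cut s w)))
    (hj2 : ∀ w ∈ V, w ∉ T₀ → ∀ ξ, j (cut s w) ξ ∉ s ∧ cut s (j (cut s w) ξ) = cut s w)
    (hT : ∀ τ ∈ T₀, τ ∉ s → ∀ w ∈ V, w ∉ T₀ → cut s τ ≠ cut s w) (e : Z ≃[L] Z) :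
    ∃ (P : Type u) (_ : L.Structure P) (_ : (exLang L Λ).Structure P)
      (_ : (exHom L Λ).IsExpansionOn P) (v : V → P) (g : P ≃[L] P), Gr.Cl1 K (exHom L Λ) P ∧
      AtEq (exLang L Λ) (fun w : V => c w) v ∧
      ∀ r r' : (exLang L Λ).Term V, (∀ φ : V → I, (∀ w : V, w.1 ∈ T₀ → φ w = w) →
        (∀ w : V, w.1 ∉ T₀ → φ w ∈ range (j (cut s w.1))) →
        e (r.realize (fun w => c (φ w))) = r'.realize (fun w => c (φ w))) →
        g (r.realize v) = r'.realize v := by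
  classical
  have hJne : Nonempty J := by
    rw [← mk_ne_zero_iff]
    exact (aleph0_pos.trans_le ((aleph0_le_hanf _).trans hJ)).ne'
  let Gc : Set s → Z → Z := fun C z => if h : ∃ ξ, x ξ = z then c (j C h.choose) else z
  have hGc : ∀ C ξ, Gc C (x ξ) = c (j C ξ) := by
    intro C ξ
    have h1 : ∃ ξ', x ξ' = x ξ := ⟨ξ, rfl⟩
    have h2 : Gc C (x ξ) = c (j C h1.choose) := dif_pos h1
    rw [h2, hx h1.choose_spec]
  let dec : Z → ℕ → Z := fun z n => if n = 0 then e z else e.symm z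
  obtain ⟨st, hexp, hst⟩ := exists_str (Λ := Λ) (T := T₀) (S := s) (D₁ := I) (N := Z)
    e.toEmbedding (fun τ : T₀ => c τ) Gc dec c (Classical.arbitrary Z)
  have hAZ := hst.hA
  have hcard : (L2 L Λ T₀ s).card ≤ l := card_L2_le hl hL hΛ hT₀ hs
  obtain ⟨a₂, ha₂, htmpl⟩ := exists_template (L := L2 L Λ T₀ s) hl hcard x hJ
  let ε : Set s → Prop := fun C => j C (a₂ 2 0) < j C (a₂ 2 1)
  let Γ : Type u := (#(Set s)).ord.ToType
  obtain ⟨ι⟩ : Nonempty (Set s ≃ Γ) := Cardinal.eq.1 (mk_ord_toType _).symm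
  obtain ⟨P, stP, v, hv, htopv⟩ := exists_isEM (L := L2 L Λ T₀ s) (M := Z)
    (a := fun n k => x (a₂ n k)) htmpl (Γ ×ₗ (I ⊕ₗ Iᵒᵈ))
  let s1 : L.Structure P := (Language.LHom.sumInl : L →ᴸ L2 L Λ T₀ s).reduct P
  have he1 : (Language.LHom.sumInl : L →ᴸ L2 L Λ T₀ s).IsExpansionOn P :=
    Language.LHom.isExpansionOn_reduct _ _
  let s2 : (exLang L Λ).Structure P := (homA : exLang L Λ →ᴸ L2 L Λ T₀ s).reduct P
  have he2 : (homA : exLang L Λ →ᴸ L2 L Λ T₀ s).IsExpansionOn P :=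
    Language.LHom.isExpansionOn_reduct _ _
  have he3 : (exHom L Λ).IsExpansionOn P := ⟨fun _ _ => rfl, fun _ _ => rfl⟩
  have hloc := exists_local hv htopv
  have hclP : Gr.Cl1 K (exHom L Λ) P := (hclZ.transfer fun A => by
    obtain ⟨ρ⟩ := Gr.isEM_local hv htopv A
    have hsub : closure (exLang L Λ) (A : Set P) ≤
        (homA : exLang L Λ →ᴸ L2 L Λ T₀ s).substructureReduct (closure (L2 L Λ T₀ s) (A : Set P)) :=
      closure_le.2 fun y hy => subset_closure hy
    let ρ' := (Gr.subEmb (homA : exLang L Λ →ᴸ L2 L Λ T₀ s) _ ρ).comp (inclusion hsub)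
    exact ⟨ρ', ρ'.injective⟩).2
  have hF0 : ∀ z : Z, funMap (L := L2 L Λ T₀ s) (sF 0) ![z] = e z := fun z => hst.hF 0 ![z]
  have hF1 : ∀ z : Z, funMap (L := L2 L Λ T₀ s) (sF 1) ![z] = e.symm z := fun z => hst.hF 1 ![z]
  obtain ⟨g, hg⟩ := exists_auto (P := P) e hF0 hF1 hloc
  let U : V → (L2 L Λ T₀ s).Term V := fun w =>
    if h : w.1 ∈ T₀ then tT ⟨w.1, h⟩ else tG (cut s w.1) (Language.Term.var w)
  let z : V → Γ ×ₗ (I ⊕ₗ Iᵒᵈ) := fun w => zIdx s ι ε w.1
  let y : V → P := fun w => (U w).realize fun w' => v (z w')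
  -- the sign lemma
  have hsign : ∀ (C : Set s) (n : ℕ) (k k' : Fin n), k < k' →
      (j C (a₂ n k) < j C (a₂ n k') ↔ ε C) := by
    intro C n k k' hk
    have h1 := htmpl 2 n ![k, k'] (by
      intro p q hpq
      fin_cases p <;> fin_cases q <;> simp_all)
    have h2 := h1.2 2 rLt ![tG C (Language.Term.var 0), tG C (Language.Term.var 1)]
    have h3 : ∀ b : Fin 2 → Z, RelMap (L := L2 L Λ T₀ s) rLt
        (fun i => ((![tG C (Language.Term.var 0), tG C (Language.Term.var 1)] : Fin 2 →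
          (L2 L Λ T₀ s).Term (Fin 2)) i).realize b) ↔
        ∃ t t', t < t' ∧ c t = Gc C (b 0) ∧ c t' = Gc C (b 1) := by
      intro b
      rw [hst.hLt]
      simp only [Matrix.cons_val_zero, Matrix.cons_val_one, realize_tG, hst.hG]
      rfl
    rw [h3, h3] at h2
    have h4 : ∀ ξ ξ', (∃ t t', t < t' ∧ c t = Gc C (x ξ) ∧ c t' = Gc C (x ξ')) ↔
        j C ξ < j C ξ' := by
      intro ξ ξ'
      rw [hGc, hGc]
      constructor
      · rintro ⟨t, t', h5, h6, h7⟩
        rw [← hinj h6, ← hinj h7]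
        exact h5
      · intro h5
        exact ⟨_, _, h5, rfl, rfl⟩
    exact (h4 _ _).symm.trans (h2.trans (h4 _ _))
  -- the main lemma
  have key : ∀ F : Finset V, ∃ φ : V → I, (∀ w : V, w.1 ∈ T₀ → φ w = w) ∧
      (∀ w : V, w.1 ∉ T₀ → φ w ∈ range (j (cut s w.1))) ∧
      (∀ w ∈ F, ∀ w' ∈ F, (w.1 ≤ w'.1 ↔ φ w ≤ φ w')) ∧
      AtEq (L2 L Λ T₀ s) (fun w : F => y w.1) (fun w : F => c (φ w.1)) := by
    intro F
    let G : Finset (Γ ×ₗ (I ⊕ₗ Iᵒᵈ)) := F.image z
    let ψ : V → J := fun w => if h : z w ∈ G then a₂ G.card ((G.orderIsoOfFin rfl).symm ⟨z w, h⟩)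
      else Classical.arbitrary J
    have hψ : ∀ w (h : z w ∈ G), ψ w = a₂ G.card ((G.orderIsoOfFin rfl).symm ⟨z w, h⟩) :=
      fun w h => dif_pos h
    have hψlt : ∀ w ∈ F, ∀ w' ∈ F, cut s w.1 = cut s w'.1 → z w < z w' →
        (j (cut s w.1) (ψ w) < j (cut s w'.1) (ψ w') ↔ ε (cut s w.1)) ∧ ψ w ≠ ψ w' := by
      intro w hw w' hw' h1 h2
      have h3 : z w ∈ G := Finset.mem_image_of_mem z hw
      have h4 : z w' ∈ G := Finset.mem_image_of_mem z hw'
      have h5 : (G.orderIsoOfFin rfl).symm ⟨z w, h3⟩ < (G.orderIsoOfFin rfl).symm ⟨z w', h4⟩ :=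
        (G.orderIsoOfFin rfl).symm.strictMono h2
      rw [hψ w h3, hψ w' h4, ← h1]
      exact ⟨hsign _ _ _ _ h5, ((ha₂ _) h5).ne⟩
    let φ : V → I := fun w => if w.1 ∈ T₀ then w.1 else j (cut s w.1) (ψ w)
    have hφ1 : ∀ w : V, w.1 ∈ T₀ → φ w = w := fun w hw => if_pos hw
    have hφ2 : ∀ w : V, w.1 ∉ T₀ → φ w = j (cut s w.1) (ψ w) := fun w hw => if_neg hw
    refine ⟨φ, hφ1, fun w hw => ⟨ψ w, (hφ2 w hw).symm⟩, ?_, ?_⟩
    · have hcut : ∀ w : V, w.1 ∉ T₀ → φ w ∉ s ∧ cut s (φ w) = cut s w.1 := by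
        intro w hw
        rw [hφ2 w hw]
        exact hj2 w.1 w.2 hw _
      have hmix : ∀ w w' : V, w.1 ∈ T₀ → w'.1 ∉ T₀ → SameOrd w.1 w'.1 (φ w) (φ w') := by
        intro w w' hw hw'
        rw [hφ1 w hw]
        by_cases hws : w.1 ∈ s
        · exact sameOrd_of_mem hws (fun h => hw' (hsT h)) (hcut w' hw').1 (hcut w' hw').2
        · exact sameOrd_of_cut (hT _ hw hws _ w'.2 hw') rfl (hcut w' hw').2
      have hnot : ∀ w ∈ F, ∀ w' ∈ F, w.1 ∉ T₀ → w'.1 ∉ T₀ → w.1 < w'.1 →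
          SameOrd w.1 w'.1 (φ w) (φ w') := by
        intro w hwF w' hwF' hw hw' hlt
        by_cases h1 : cut s w.1 = cut s w'.1
        · refine sameOrd_of_lt hlt ?_
          rw [hφ2 w hw, hφ2 w' hw']
          by_cases hε : ε (cut s w.1)
          · have h2 : z w < z w' := (zIdx_lt_pos h1 hε).2 hlt
            exact ((hψlt w hwF w' hwF' h1 h2).1).2 hε
          · have hε' : ¬ ε (cut s w'.1) := by rw [← h1]; exact hε
            have h2 : z w' < z w := (zIdx_lt_neg h1.symm hε').2 hlt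
            obtain ⟨h3, h4⟩ := hψlt w' hwF' w hwF h1.symm h2
            have h5 : ¬ (j (cut s w'.1) (ψ w') < j (cut s w.1) (ψ w)) := fun h => hε' (h3.1 h)
            refine lt_of_le_of_ne (not_lt.1 h5) fun h6 => h4 ?_
            rw [h1] at h6
            exact (hj1 w'.1 w'.2 hw' h6).symm
        · exact sameOrd_of_cut h1 (hcut w hw).2 (hcut w' hw').2
      intro w hwF w' hwF'
      by_cases hw : w.1 ∈ T₀
      · by_cases hw' : w'.1 ∈ T₀
        · rw [hφ1 w hw, hφ1 w' hw']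
        · exact (hmix w w' hw hw').1
      · by_cases hw' : w'.1 ∈ T₀
        · exact (hmix w' w hw' hw).2
        · rcases lt_trichotomy w.1 w'.1 with h | h | h
          · exact (hnot w hwF w' hwF' hw hw' h).1
          · rw [Subtype.ext h]
            exact ⟨fun _ => le_rfl, fun _ => le_rfl⟩
          · exact (hnot w' hwF' w hwF hw' hw h).2
    · have h1 := IsEM.finset hv G
      have hmem : ∀ w : F, z w.1 ∈ G := fun w => Finset.mem_image_of_mem z w.2
      have h2 := h1.comp fun w : F => (⟨z w.1, hmem w⟩ : G)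
      let U' : F → (L2 L Λ T₀ s).Term F := fun w =>
        if h : w.1.1 ∈ T₀ then tT ⟨w.1.1, h⟩ else tG (cut s w.1.1) (Language.Term.var w)
      have h3 := AtEq.map_terms h2 U'
      have h4 : (fun w : F => (U' w).realize
          ((fun d : G => v d.1) ∘ fun w : F => (⟨z w.1, hmem w⟩ : G))) = fun w : F => y w.1 := by
        funext w
        change _ = (U w.1).realize fun w' => v (z w')
        by_cases hw : w.1.1 ∈ T₀
        · have h5 : U' w = tT ⟨w.1.1, hw⟩ := dif_pos hw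
          have h6 : U w.1 = tT ⟨w.1.1, hw⟩ := dif_pos hw
          rw [h5, h6, realize_tT, realize_tT]
        · have h5 : U' w = tG (cut s w.1.1) (Language.Term.var w) := dif_neg hw
          have h6 : U w.1 = tG (cut s w.1.1) (Language.Term.var w.1) := dif_neg hw
          rw [h5, h6, realize_tG, realize_tG]
          rfl
      have h5 : (fun w : F => (U' w).realize
          ((fun d : G => x (a₂ G.card ((G.orderIsoOfFin rfl).symm d))) ∘
            fun w : F => (⟨z w.1, hmem w⟩ : G))) = fun w : F => c (φ w.1) := by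
        funext w
        by_cases hw : w.1.1 ∈ T₀
        · have h5 : U' w = tT ⟨w.1.1, hw⟩ := dif_pos hw
          rw [h5, realize_tT, hst.hT, hφ1 w.1 hw]
        · have h5 : U' w = tG (cut s w.1.1) (Language.Term.var w) := dif_neg hw
          rw [h5, realize_tG, hst.hG, hφ2 w.1 hw, hψ w.1 (hmem w), ← hGc]
          rfl
      rw [h4, h5] at h3
      exact h3
  refine ⟨P, s1, s2, he3, y, g, hclP, ?_, ?_⟩
  · refine AtEq.of_finite fun F => ?_
    obtain ⟨φ, -, -, h1, h2⟩ := key F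
    exact (hc.pattern hc (fun q : F => q.1.1) (fun q : F => φ q.1) fun p q =>
      h1 p.1 p.2 q.1 q.2).trans (AtEq.red (homA : exLang L Λ →ᴸ L2 L Λ T₀ s) h2).symm
  · intro r r' hrr
    obtain ⟨φ, h1, h2, -, h3⟩ := key (r.varFinset ∪ r'.varFinset)
    have h4 := hrr φ h1 h2
    let F : Finset V := r.varFinset ∪ r'.varFinset
    let q : (exLang L Λ).Term F := r.restrictVar fun p => ⟨p.1, Finset.mem_union_left _ p.2⟩
    let q' : (exLang L Λ).Term F := r'.restrictVar fun p => ⟨p.1, Finset.mem_union_right _ p.2⟩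
    have hq : ∀ {N : Type u} [(exLang L Λ).Structure N] (b : V → N),
        q.realize (fun w : F => b w.1) = r.realize b := fun b =>
      Language.Term.realize_restrictVar (v := fun q : F => b q.1) b (by simp)
    have hq' : ∀ {N : Type u} [(exLang L Λ).Structure N] (b : V → N),
        q'.realize (fun w : F => b w.1) = r'.realize b := fun b =>
      Language.Term.realize_restrictVar (v := fun q : F => b q.1) b (by simp)
    have h5 := (h3.1 (tF 0 ((homA : exLang L Λ →ᴸ L2 L Λ T₀ s).onTerm q))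
      ((homA : exLang L Λ →ᴸ L2 L Λ T₀ s).onTerm q')).2 (by
        rw [realize_tF, hF0, Language.LHom.realize_onTerm, Language.LHom.realize_onTerm,
          hq fun w => c (φ w), hq' fun w => c (φ w)]
        exact h4)
    rw [realize_tF, Language.LHom.realize_onTerm, Language.LHom.realize_onTerm, hq y, hq' y,
      ← hg] at h5
    exact h5

end Vale.Agent.P307.R2.H514
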