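import Vale.Agent.P307.R2.H514.Tame

set_option linter.unusedSectionVars false

universe u v w

open FirstOrder Cardinal Set

namespace Vale.Agent.P307.R2.H514

open Vale.Agent.P307 Vale.Agent.P307.H304 Vale.Agent.P307.R2.H287 Language.Structure
  Language.Substructure

variable {L : Language.{u, u}} {K : AEC L} {ℓ : Cardinal.{u}}
  {α κf : Cardinal.{u} → Cardinal.{u}}

/-- **Tameness** over systems of standard submodels of `EM(I)` which are unions of the blocks of a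
partition of `I` into few convex blocks (the fibres of the monotone map `π`). -/
theorem tame_conv (hK : K.IsLS ℓ) (hunb : ∀ ν, ν < κf ν ∧ K.CategoricalIn (κf ν))
    (hst : Stab K ℓ α (thr κf)) (t : Tpl K ℓ) {σ θ : Cardinal.{u}} (hσ : ℓ ≤ σ)
    (hα : ∀ ρ < θ, α ρ < θ) (hκ : ∀ ρ < θ, thr κf ρ < θ) (hcof : θ.ord.cof = ℵ₀)
    (hHθ : tH σ < θ) {I : Type u} [LinearOrder I] (E : EM t I) (hI : θ ≤ #I)
    {Γ : Type u} [LinearOrder Γ] (hΓ : #Γ ≤ σ) (π : I → Γ) (hπ : Monotone π)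
    {F : Type u} (W : F → Set I)
    (hW : ∀ f, ∀ w ∈ W f, ∀ f', ∀ w' ∈ W f', π w = π w' → w' ∈ W f)
    {X : Type u} (hX : #X ≤ σ) (c c' : X → E.N)
    (h : ∀ (ι : Type u) (a : ι → E.N), #ι ≤ tH σ →
      (∀ i, ∃ f, a i ∈ closure (exLang L t.Λ) (E.c '' W f)) →
      EqS L (α (tH σ)) (Sum.elim a c) (Sum.elim a c'))
    {ν : Cardinal.{u}} (hℓν : ℓ ≤ ν) (hνθ : ν < θ) (hXν : #X ≤ ν)
    {ι : Type u} (hι : #ι ≤ ν) (a : ι → E.N)
    (ha : ∀ i, ∃ f, a i ∈ closure (exLang L t.Λ) (E.c '' W f)) :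
    EqS L ν (Sum.elim a c) (Sum.elim a c') := by
  classical
  have hℓ := hK.1
  have hσ0 : ℵ₀ ≤ σ := hℓ.trans hσ
  have hH0 : ℵ₀ ≤ tH σ := hσ0.trans (lt_tH' σ).le
  have hℓH : ℓ ≤ tH σ := hσ.trans (lt_tH' σ).le
  have hHα : tH σ ≤ α (tH σ) := (hst _ hℓH).1
  have hαθ : α (tH σ) < θ := hα _ hHθ
  have hν0 : ℵ₀ ≤ ν := hℓ.trans hℓν
  have hE : θ ≤ #E.N := hI.trans E.le_card
  let J : Type u := Γ ×ₗ (WithBot I)
  let j : I → J := fun w => toLex (π w, (w : WithBot I))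
  have hj : StrictMono j := by
    intro w w' hw
    rw [Prod.Lex.lt_iff]
    rcases (hπ hw.le).lt_or_eq with h1 | h1
    · exact Or.inl h1
    · exact Or.inr ⟨h1, WithBot.coe_lt_coe.2 hw⟩
  let s : Γ → J := fun γ => toLex (γ, ⊥)
  have hs : ∀ γ w, s γ < j w ↔ γ ≤ π w := by
    intro γ w
    rw [Prod.Lex.lt_iff]
    constructor
    · rintro (h1 | h1)
      · exact le_of_lt h1
      · exact le_of_eq h1.1
    · intro h1
      rcases h1.lt_or_eq with h2 | h2
      · exact Or.inl h2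
      · exact Or.inr ⟨h2, WithBot.bot_lt_coe w⟩
  obtain ⟨E'⟩ := exists_em t J
  obtain ⟨g, hg, hg'⟩ := EM.exists_map E E' j hj
  have hJ : θ ≤ #J := hI.trans (mk_le_of_injective hj.injective)
  have htr : ∀ μ : Cardinal.{u}, ℓ ≤ μ → μ < θ → ∀ (ι : Type u), #ι ≤ μ → ∀ b b' : ι → E.N,
      (EqS L μ (fun i => g (b i)) (fun i => g (b' i)) ↔ EqS L μ b b') := fun μ hμ hμθ ι hι b b' =>
    eqS_emb_iff hK hunb hμ hι g hg ((hκ μ hμθ).le.trans hE) b b'
  have hsum : ∀ {ι : Type u} (b : ι → E.N) (d : X → E.N),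
      (fun k => g ((Sum.elim b d : ι ⊕ X → E.N) k)) =
        Sum.elim (fun i => g (b i)) (fun x => g (d x)) := by
    intro ι b d
    funext k
    rcases k with i | x <;> rfl
  let W' : F → Set J := fun f => j '' W f
  have hpiece : ∀ (f : F) (y : E'.N), y ∈ closure (exLang L t.Λ) (E'.c '' W' f) →
      ∃ b : E.N, g b = y ∧ b ∈ closure (exLang L t.Λ) (E.c '' W f) := by
    intro f y hy
    obtain ⟨r, hr⟩ := (mem_closure_image_iff _ _ _).1 hy
    choose p hp1 hp2 using fun q : W' f => q.2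
    refine ⟨r.realize fun q => E.c (p q), ?_, ?_⟩
    · have h2 := hg' (r.relabel p)
      rw [Language.Term.realize_relabel, Language.Term.realize_relabel] at h2
      refine h2.trans (Eq.trans ?_ hr)
      congr 1
      funext q
      exact congrArg E'.c (hp2 q)
    · refine (mem_closure_image_iff _ _ _).2 ⟨r.relabel fun q => ⟨p q, hp1 q⟩, ?_⟩
      rw [Language.Term.realize_relabel]
      rfl
  have hpiece' : ∀ (f : F) (b : E.N), b ∈ closure (exLang L t.Λ) (E.c '' W f) →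
      g b ∈ closure (exLang L t.Λ) (E'.c '' W' f) := by
    intro f b hb
    obtain ⟨r, hr⟩ := (mem_closure_image_iff _ _ _).1 hb
    refine (mem_closure_image_iff _ _ _).2 ⟨r.relabel fun q => ⟨j q.1, ⟨_, q.2, rfl⟩⟩, ?_⟩
    have h2 := hg' (r.relabel fun q => q.1)
    rw [Language.Term.realize_relabel, Language.Term.realize_relabel] at h2
    rw [Language.Term.realize_relabel, ← hr]
    exact h2.symm
  have hιX : #(ι ⊕ X) ≤ ν := by
    rw [mk_sum, lift_id, lift_id]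
    exact add_le_of_le hν0 hι hXν
  have h1 := tame_family hK hunb hst t hσ hα hκ hcof hHθ E' hJ W' (range s)
    (mk_range_le.trans hΓ) (by
      rintro f _ ⟨w, hw, rfl⟩ - f' _ ⟨w', hw', rfl⟩ - hcut
      refine ⟨w', hW f w hw f' w' hw' ?_, rfl⟩
      apply le_antisymm
      · exact (hs _ _).1 ((hcut _ ⟨π w, rfl⟩).1 ((hs _ _).2 le_rfl))
      · exact (hs _ _).1 ((hcut _ ⟨π w', rfl⟩).2 ((hs _ _).2 le_rfl))) hX
    (fun x => g (c x)) (fun x => g (c' x)) (by
      intro ι b hι hb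
      choose f hf using hb
      choose b₀ hb₀ hb₁ using fun i => hpiece (f i) (b i) (hf i)
      have h2 := h ι b₀ hι fun i => ⟨f i, hb₁ i⟩
      have h5 : b = fun i => g (b₀ i) := funext fun i => (hb₀ i).symm
      have h6 : #(ι ⊕ X) ≤ α (tH σ) := by
        rw [mk_sum, lift_id, lift_id]
        exact (add_le_of_le hH0 hι (hX.trans (lt_tH' σ).le)).trans hHα
      rw [h5, ← hsum, ← hsum, htr _ (hℓH.trans hHα) hαθ _ h6]
      exact h2) hℓν hνθ hXν hι (fun i => g (a i)) (fun i => (ha i).imp fun f hf => hpiece' f _ hf)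
  rw [← hsum, ← hsum, htr ν hℓν hνθ _ hιX] at h1
  exact h1

end Vale.Agent.P307.R2.H514
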