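import Vale.Agent.P307.R2.H514.SatBlk
import Vale.Agent.P307.R2.H806.Std
import Vale.Agent.P307.R2.H541.Inst

/-!
Universality of a block of order type `θ⁺` over the hull of the rest.
-/

set_option linter.unusedSectionVars false

universe u

open FirstOrder Cardinal Set

namespace Vale.Agent.P307.R2.H514

open Vale.Agent.P307 Vale.Agent.P307.H304 Vale.Agent.P307.R2.H287 Vale.Agent.P307.R2.H1
  Vale.Agent.P307.R2.H806 Vale.Agent.P307.R2.H971 Vale.Agent.P307.R2.H541 Language.Structure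
  Language.Substructure

variable {L : Language.{u, u}} {K : AEC L} {ℓ θ ν : Cardinal.{u}}
  {κf α : Cardinal.{u} → Cardinal.{u}} {C : Type u} [L.Structure C]

section

variable (h₀ : BasePt K ℓ κf α θ) (hK : K.IsLS ℓ)
  (hunb : ∀ ν, ν < κf ν ∧ K.CategoricalIn (κf ν)) (hst : Stab K ℓ α (H287.thr κf))
  (hCm : K.mem C) (hs : Sat K θ C) (hCc : #C = Order.succ θ)

include h₀ hK hunb hst hCm hs hCc

/-- A model over the hull of `Z` is moved into the hull of `Z` and an initial segment of a block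
of order type `θ⁺`. -/
theorem pg_univ_block {t : Tpl K ν} (hν : ν ≤ θ) {J : Type u} [LinearOrder J] (E : EM t J)
    (e : E.N ↪[L] C) (he : K.Emb e) (s : SuccTy θ → J) (hsm : StrictMono s) {Z : Set J}
    (hZ : #Z = θ) (hcut : ∀ z ∈ Z, (∀ x, z < s x) ∨ ∀ x, s x < z) {D : Set C}
    (hD : D ∈ (pg h₀ hK hunb hst hCm hs hCc).S) (hZD : e '' (hullL E Z : Set E.N) ⊆ D) :
    ∃ k ∈ (pg h₀ hK hunb hst hCm hs hCc).G, (∀ a ∈ e '' (hullL E Z : Set E.N), k a = a) ∧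
      ∃ b : SuccTy θ, k '' D ⊆ e '' (hullL E (Z ∪ s '' Iio b) : Set E.N) := by
  classical
  have hℓ : ℓ ≤ θ := h₀.pt.lt.le
  have hθ : ℵ₀ ≤ θ := hK.1.trans hℓ
  obtain ⟨D, hDK, hDc, rfl⟩ := hD
  -- the EM models over the suborders
  let J₁ : Type u := (Z ∪ range s : Set J)
  obtain ⟨E₁⟩ := exists_em t J₁
  obtain ⟨EZ⟩ := exists_em t Z
  obtain ⟨j₁, hj₁, hj₁'⟩ := E₁.exists_map E (Subtype.val : J₁ → J) fun _ _ h => h
  obtain ⟨a₁, ha₁, ha₁'⟩ := EZ.exists_map E₁ (fun z => (⟨z.1, Or.inl z.2⟩ : J₁)) fun _ _ h => h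
  obtain ⟨a₂, ha₂, ha₂'⟩ := EZ.exists_map E (Subtype.val : Z → J) fun _ _ h => h
  have ha₁₂ : ∀ x, j₁ (a₁ x) = a₂ x := fun x =>
    IsMap.comp_eq (f := a₁) (g := j₁) (h := a₂) ha₁' hj₁' ha₂' (fun _ => rfl) x
  -- saturation
  have hsat : Sat K θ E₁.N := by
    refine sat_em_block h₀.ab hK hℓ (h₀.largeExt hK hunb _) t hν
      (fun x => (⟨s x, Or.inr ⟨x, rfl⟩⟩ : J₁)) (fun x y h => hsm h) (fun j hj => ?_) E₁
    rcases j.2 with h | ⟨x, hx⟩
    · exact hcut j.1 h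
    · exact absurd ⟨x, Subtype.ext hx⟩ hj
  -- the map into `D`
  have hmem : ∀ x, e (a₂ x) ∈ D := by
    intro x
    refine hZD ⟨a₂ x, ?_, rfl⟩
    obtain ⟨r, rfl⟩ := EM.exists_term EZ x
    rw [ha₂']
    exact (mem_closure_image_iff E.c Z _).2 ⟨r, rfl⟩
  let f : EZ.N ↪[L] D := (e.comp a₂).codRestrict D hmem
  have hf : K.Emb f := AEC.Emb.of_comp (g := D.subtype) (AEC.emb_subtype.2 hDK) (by
    have h1 : D.subtype.comp f = e.comp a₂ := Language.Embedding.ext fun _ => rfl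
    rw [h1]
    exact AEC.Emb.comp he ha₂)
  obtain ⟨g, hg, hg'⟩ := hsat EZ.N D a₁ f ha₁ hf (EZ.card_eq hν hZ) hDc
  -- the bound of the support
  obtain ⟨V, hV, hVg⟩ := exists_cover' hθ E₁.top (range g) (mk_range_le.trans hDc.le)
  obtain ⟨b, hb, -⟩ := exists_bound hθ ((fun x => (⟨s x, Or.inr ⟨x, rfl⟩⟩ : J₁)) ⁻¹' V)
    ((mk_preimage_of_injective _ _ (fun x y hxy => hsm.injective
      (congrArg Subtype.val hxy))).trans hV)
  -- the automorphism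
  obtain ⟨k, hk⟩ := hs.exists_iso hK hℓ hs hCc hCc D.subtype ((e.comp j₁).comp g)
    (AEC.emb_subtype.2 hDK) (AEC.Emb.comp (AEC.Emb.comp he hj₁) hg) hDc
  have hk' : ∀ d : D, k (d : C) = e (j₁ (g d)) := fun d => hk d
  refine ⟨k.toEquiv, mem_autG k, ?_, b, ?_⟩
  · rintro _ ⟨x, hx, rfl⟩
    obtain ⟨r, rfl⟩ := (mem_closure_image_iff E.c Z _).1 hx
    have h1 : a₂ (r.realize EZ.c) = r.realize fun q : Z => E.c q.1 := ha₂' r
    have h2 : k (e (a₂ (r.realize EZ.c))) = e (a₂ (r.realize EZ.c)) := by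
      have h3 := hk' (f (r.realize EZ.c))
      rw [hg', ha₁₂] at h3
      exact h3
    rw [h1] at h2
    exact h2
  · rintro _ ⟨d, hd, rfl⟩
    have h1 := hk' ⟨d, hd⟩
    change k d ∈ _
    rw [show k d = e (j₁ (g ⟨d, hd⟩)) from h1]
    refine ⟨_, ?_, rfl⟩
    obtain ⟨r, hr⟩ := hVg (g ⟨d, hd⟩) ⟨_, rfl⟩
    have hVZ : ∀ v : V, v.1.1 ∈ Z ∪ s '' Iio b := by
      rintro ⟨⟨v, hv⟩, hvV⟩
      rcases hv with h | ⟨x, rfl⟩
      · exact Or.inl h
      · exact Or.inr ⟨x, hb x hvV, rfl⟩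
    have h2 : j₁ (g ⟨d, hd⟩) = (r.relabel fun v : V => (⟨v.1.1, hVZ v⟩ :
        (Z ∪ s '' Iio b : Set J))).realize fun q : (Z ∪ s '' Iio b : Set J) => E.c q.1 := by
      rw [← hr]
      have h3 := hj₁' (r.relabel fun v : V => v.1)
      rw [Language.Term.realize_relabel, Language.Term.realize_relabel] at h3
      refine h3.trans ?_
      rw [Language.Term.realize_relabel]
      rfl
    change j₁ (g ⟨d, hd⟩) ∈ hullL E (Z ∪ s '' Iio b)
    rw [h2]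
    exact (mem_closure_image_iff E.c (Z ∪ s '' Iio b) _).2 ⟨_, rfl⟩

/-- The gap lemma: every model is moved, over the hull of `Z`, into the hull of `Z` and an initial
segment of the block. -/
theorem pg_gap_block {t : Tpl K ν} (hν : ν ≤ θ) {J : Type u} [LinearOrder J] (E : EM t J)
    (e : E.N ↪[L] C) (he : K.Emb e) (s : SuccTy θ → J) (hsm : StrictMono s) {Z : Set J}
    (hZ : #Z = θ) (hcut : ∀ z ∈ Z, (∀ x, z < s x) ∨ ∀ x, s x < z) {D : Set C}
    (hD : #D ≤ θ) :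
    ∃ k ∈ (pg h₀ hK hunb hst hCm hs hCc).G, (∀ a ∈ e '' (hullL E Z : Set E.N), k a = a) ∧
      ∃ b : SuccTy θ, k '' D ⊆ e '' (hullL E (Z ∪ s '' Iio b) : Set E.N) := by
  have hθ : ℵ₀ ≤ θ := aleph0_le_pt h₀ hK
  obtain ⟨D', hD', hD'X, hD'c⟩ := exists_sub_card hK h₀.pt.lt.le hCm
    ((Order.le_succ θ).trans hCc.ge) (D ∪ e '' (hullL E Z : Set E.N))
    ((mk_union_le _ _).trans (add_le_of_le hθ hD (mk_image_le.trans (mk_hullL_le E hν hZ.le))))
  obtain ⟨k, hk, hk1, b, hb⟩ := pg_univ_block h₀ hK hunb hst hCm hs hCc hν E e he s hsm hZ hcut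
    (D := (D' : Set C)) ⟨D', hD', hD'c, rfl⟩ (subset_union_right.trans hD'X)
  exact ⟨k, hk, hk1, b, (image_mono (subset_union_left.trans hD'X)).trans hb⟩

end

end Vale.Agent.P307.R2.H514
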