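import Vale.Agent.P307.R2.H287.Unif2

universe u

open FirstOrder Cardinal Set

namespace Vale.Agent.P307.R2.H514

open Vale.Agent.P307 Vale.Agent.P307.H304

/-- Uniformization: if every class with unbounded categoricity spectrum is eventually categorical
then there is one threshold for all classes with Löwenheim-Skolem number at most `l`. -/
theorem uniform_of_eventually (l : Cardinal.{u})
    (h : ∀ (L : Language.{u, u}) (K : AEC L), K.IsLS l →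
      (∀ ν, ∃ κ, ν < κ ∧ K.CategoricalIn κ) → ∃ μ, ∀ κ, μ ≤ κ → K.CategoricalIn κ) :
    ∃ μ, l ≤ μ ∧ ∀ (L : Language.{u, u}) (K : AEC L), K.LS ≤ l →
      (∃ κ, μ ≤ κ ∧ K.CategoricalIn κ) → ∀ κ, μ ≤ κ → K.CategoricalIn κ := by
  obtain ⟨Λ, rfl⟩ : ∃ Λ : Type u, #Λ = l := ⟨l.out, mk_out l⟩
  have key : ∀ c : CodeTy Λ, ∃ μ : Cardinal.{u}, (∀ κ, μ ≤ κ → κ ∈ spec c) ∨
      (∀ κ, μ ≤ κ → κ ∉ spec c) := by
    intro c
    by_cases hunb : ∀ ν, ∃ κ : Cardinal.{u}, ν < κ ∧ κ ∈ spec c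
    · obtain ⟨-, -, K, hK1, hK2, -⟩ := hunb 0
      have hspec : ∀ κ, κ ∈ spec c → K.CategoricalIn κ := by
        rintro κ ⟨K', h1, h2, h3⟩
        exact categoricalIn_of_part_eq (h2.trans hK2.symm) h1 hK1 h3
      obtain ⟨μ, hμ⟩ := h _ K hK1 fun ν => by
        obtain ⟨κ, h1, h2⟩ := hunb ν
        exact ⟨κ, h1, hspec κ h2⟩
      exact ⟨μ, Or.inl fun κ hκ => ⟨K, hK1, hK2, hμ κ hκ⟩⟩
    · push Not at hunb
      obtain ⟨ν, hν⟩ := hunb
      exact ⟨Order.succ ν, Or.inr fun κ hκ => hν κ (Order.succ_le_iff.1 hκ)⟩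
  choose μ hμ using key
  have hb : BddAbove (Set.range μ) := bddAbove_of_small
  refine ⟨max #Λ (⨆ c, μ c), le_max_left _ _, ?_⟩
  rintro L K hK ⟨κ₀, h1, h2⟩ κ hκ
  obtain ⟨c, hc, -⟩ := exists_code K (AEC.isLS_of_LS_le hK)
  have h3 : ∀ κ, max #Λ (⨆ c, μ c) ≤ κ → μ c ≤ κ := fun κ hκ =>
    (le_ciSup hb c).trans ((le_max_right _ _).trans hκ)
  rcases hμ c with h4 | h4
  · exact (hc κ).1 (h4 κ (h3 κ hκ))
  · exact absurd ((hc κ₀).2 h2) (h4 κ₀ (h3 κ₀ h1))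

end Vale.Agent.P307.R2.H514
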